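import Crest.Agent.X261.Fam.GA
import Crest.Agent.X261.Fam.FsA
import Crest.Agent.X261.Fam77.Bd
import Crest.Agent.X261.Fam.Mol
import Crest.Agent.X261.Fam69.Defs
import Crest.Agent.T223.CovMass_25
import Crest.Agent.X261.Fam.St
import Crest.Agent.R275.QN2b_734

-- ▼ part X261/Fam69/Tr
section

/-!
# Row 261, package FAM (helper69), part Tr: transformation laws and densities

* `wd_comp'`, `th_comp`, `Cf_comp` : chain rules;
* `Jt`, `Tn`, `den_ip` : families of jets, of tensors, and the density `ip X θ θ'`;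
* `tn_Q0`, `tn_Qe`, `tn_Wm` : the tensors of the package.
-/

set_option autoImplicit false
set_option linter.unusedSectionVars false

open Set Filter Topology MeasureTheory Matrix
open scoped ComplexConjugate ComplexOrder InnerProductSpace ContDiff

namespace Crest.Agent.X261.Fam69

open Crest.Agent.R275.Geo Crest.Agent.R275.Core144 Crest.Agent.R273.UCov_914
open Crest.Agent.R275.EDR890 Crest.Agent.R273.Hess_333
open Crest.Agent.R273.Kah_333 Crest.Agent.R273.Fock_243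
open Crest.Agent.X261.Fam Crest.Agent.X261.Fam.Fs
open Crest.Agent.X261.Rel.Act (Rep Act)

noncomputable section

variable {n q : ℕ} {H : Type*} [NormedAddCommGroup H] [InnerProductSpace ℂ H]

/-! ### chain rules -/

theorem Cf_apply {T : Cn n → Cn q} {z : Cn n} (hT : DifferentiableAt ℂ T z) (b : Fin n)
    (h : Fin q) : Cf T z b h = fderiv ℂ T z (EuclideanSpace.single b 1) h := by
  have h1 := ((EuclideanSpace.proj h : Cn q →L[ℂ] ℂ).hasFDerivAt.comp z hT.hasFDerivAt)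
  have h2 : wd (false, b) (fun w => T w h) z = _ :=
    Crest.Agent.R273.HessB_333.wd_hol' h1.differentiableAt b
  rw [Cf, Matrix.of_apply, h2, h1.fderiv]
  rfl

theorem wd_comp' {W : Type*} [NormedAddCommGroup W] [NormedSpace ℂ W] {f : Cn q → W}
    {T : Cn n → Cn q} {z : Cn n} (hf : DifferentiableAt ℝ f (T z))
    (hT : DifferentiableAt ℂ T z) (s : WI n) :
    wd s (fun w => f (T w)) z = ∑ h, cj s.1 (Cf T z s.2 h) • wd (s.1, h) f (T z) := by
  have h := hf.hasFDerivAt.comp z (hT.hasFDerivAt.restrictScalars ℝ)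
  have h' : fderiv ℝ (fun w => f (T w)) z =
      (fderiv ℝ f (T z)).comp ((fderiv ℂ T z).restrictScalars ℝ) := h.fderiv
  have hI : (EuclideanSpace.single s.2 Complex.I : Cn n) =
      Complex.I • EuclideanSpace.single s.2 (1 : ℂ) := by
    ext c
    simp [PiLp.single_apply]
  simp only [Cf_apply hT]
  rw [wd, h', wdL]
  simp only [ContinuousLinearMap.comp_apply, ContinuousLinearMap.coe_restrictScalars']
  rw [hI, map_smul]
  exact wdL_vec s.1 _ _

theorem th_comp {m : ℕ} {F : Cn m → H} {T : Cn n → Cn m} {z : Cn n}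
    (hF : DifferentiableAt ℝ F (T z)) (hT : DifferentiableAt ℂ T z) :
    th (fun w => F (T w)) z = ac (Cf T z) (th F (T z)) := by
  funext b
  exact wd_comp' hF hT (false, b)

theorem Cf_comp {m : ℕ} {a : Cn m → Cn q} {T : Cn n → Cn m} {z : Cn n}
    (ha : DifferentiableAt ℂ a (T z)) (hT : DifferentiableAt ℂ T z) :
    Cf (fun w => a (T w)) z = Cf T z * Cf a (T z) := by
  ext b h
  have h1 : DifferentiableAt ℝ (fun w => a w h) (T z) :=
    (((EuclideanSpace.proj h : Cn q →L[ℂ] ℂ).differentiableAt.comp _ ha).restrictScalars ℝ)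
  exact wd_comp' (f := fun w => a w h) h1 hT (false, b)

theorem Cf_mL (L : Mt q) (x : Cn q) : Cf (mL L) x = Lᵀ := by
  ext b h
  rw [Cf_apply (mL L).differentiableAt, ContinuousLinearMap.fderiv, mL_apply]
  simp [PiLp.single_apply]

/-! ### families over the charts -/

variable {X : Type} [TopologicalSpace X] {A : Atl n X} {G : Type} [Group G]
variable {D : MonD A G} {M : Subgroup G} {a a' : D.cov G → Cn q} {R : ℝ}

/-- the metric in a chart -/
abbrev gk (K : Kah A) (i : A.ι) (z : Cn n) : Mt n := K.g i ((A.e i).symm z)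

theorem kf_gk (K : Kah A) (i : A.ι) : KF (A.e i).target (gk K i) :=
  ⟨(A.e i).open_target, K.sm i, fun _ hz => K.pos i _ ((A.e i).map_target hz), K.closed i,
    K.closed' i⟩

theorem rd_ev {W : Type*} (f : D.cov G → W) {i j : A.ι} (v : G) {x : X}
    (hx : x ∈ (A.e i).source ∩ (A.e j).source) : rd D f i v =ᶠ[𝓝 (A.e i x)]
      fun z => rd D f j (D.c i j x * v) (A.e j ((A.e i).symm z)) := by
  filter_upwards [(isOpen_ov i j).mem_nhds (mem_ov hx)] with z hz
  have h1 := (A.e i).map_target hz.1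
  rw [rd_pt D f _ hz.2, Fam.rd, D.pt_eq v h1 hz.2, D.c_loc i j x hx _ ⟨h1, hz.2⟩, smul_eq_mul]

theorem tr_dif {i j : A.ι} {x : X} (hx : x ∈ (A.e i).source ∩ (A.e j).source) :
    DifferentiableAt ℂ (fun z => A.e j ((A.e i).symm z)) (A.e i x) :=
  (A.holo i j).differentiableAt ((isOpen_ov i j).mem_nhds (mem_ov hx))

theorem Cf_tr {i j : A.ι} {x : X} (hx : x ∈ (A.e i).source ∩ (A.e j).source) :
    Cf (fun z => A.e j ((A.e i).symm z)) (A.e i x) = (Jm A i j x)ᵀ := by
  ext b h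
  rw [Cf_apply (tr_dif hx)]
  rfl

theorem hol_rd (hd : Dat D M a) (i : A.ι) (v : G) :
    DifferentiableOn ℂ (rd D a i v) (A.e i).target := by
  have := hd.hol (i, v)
  rwa [preimage_univ, inter_univ] at this

theorem rd_inv (hd : Dat D M a) {m : G} (hm : m ∈ M) (i : A.ι) (v : G) :
    rd D a i (v * m⁻¹) = rd D a i v := by
  rw [rd_deck]
  funext z
  exact hd.inv m hm _

theorem rd_law {W : Type*} (f : D.cov G → W) {i j : A.ι} (v : G) {x : X}
    (hx : x ∈ (A.e i).source ∩ (A.e j).source) :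
    rd D f i v (A.e i x) = rd D f j (D.c i j x * v) (A.e j x) := by
  have := (rd_ev (D := D) f v hx).self_of_nhds
  simp only [(A.e i).left_inv hx.1] at this
  exact this

theorem Cf_law (hd : Dat D M a) {i j : A.ι} (v : G) {x : X}
    (hx : x ∈ (A.e i).source ∩ (A.e j).source) : Cf (rd D a i v) (A.e i x) =
      (Jm A i j x)ᵀ * Cf (rd D a j (D.c i j x * v)) (A.e j x) := by
  have h1 : Cf (rd D a i v) (A.e i x) =
      Cf (fun z => rd D a j (D.c i j x * v) (A.e j ((A.e i).symm z))) (A.e i x) := by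
    ext b h
    exact wd_congr ((rd_ev a v hx).mono fun z hz => congrArg (fun y : Cn q => y h) hz) _
  have h2 := (hol_rd hd j (D.c i j x * v)).differentiableAt
    ((A.e j).open_target.mem_nhds ((A.e j).map_source hx.2))
  rw [h1, Cf_comp (by rw [(A.e i).left_inv hx.1]; exact h2) (tr_dif hx), Cf_tr hx,
    (A.e i).left_inv hx.1]

theorem g_law (K : Kah A) {i j : A.ι} {x : X} (hx : x ∈ (A.e i).source ∩ (A.e j).source) :
    gk K i (A.e i x) = (Jm A i j x)ᵀ * gk K j (A.e j x) * ((Jm A i j x)ᵀ)ᴴ := by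
  rw [gk, gk, (A.e i).left_inv hx.1, (A.e j).left_inv hx.2]
  exact K.tr i j x hx

theorem Jm_det_ne (K : Kah A) {i j : A.ι} {x : X} (hx : x ∈ (A.e i).source ∩ (A.e j).source) :
    ((Jm A i j x)ᵀ).det ≠ 0 := fun h0 => by
  have := det_law K hx
  rw [Matrix.det_transpose] at h0
  rw [h0, norm_zero] at this
  exact (K.pos i x hx.1).det_pos.ne' (by simpa using this)

/-- equivariant families of jets -/
structure Jt (D : MonD A G) (M : Subgroup G) (r : Rep M H)
    (θ : A.ι → G → Cn n → Fin n → H) : Prop where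
  law : ∀ i j v, ∀ x ∈ (A.e i).source ∩ (A.e j).source,
    θ i v (A.e i x) = ac (Jm A i j x)ᵀ (θ j (D.c i j x * v) (A.e j x))
  inv : ∀ (m : M) i v, ∀ z ∈ (A.e i).target, θ i (v * (m : G)⁻¹) z = fun b => r.π m (θ i v z b)
  cont : ∀ i v b, ContinuousOn (fun z => θ i v z b) (A.e i).target

variable {r : Rep M H} {θ θ' : A.ι → G → Cn n → Fin n → H}

theorem Jt.sub (h : Jt D M r θ) (h' : Jt D M r θ') :
    Jt D M r fun i v z => θ i v z - θ' i v z where
  law i j v x hx := by rw [h.law i j v x hx, h'.law i j v x hx, ac_sub]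
  inv m i v z hz := by
    rw [h.inv m i v z hz, h'.inv m i v z hz]
    funext b
    simp only [Pi.sub_apply, map_sub]
  cont i v b := (h.cont i v b).sub (h'.cont i v b)

theorem sm_rd {W : Type*} [NormedAddCommGroup W] [NormedSpace ℝ W] {f : D.cov G → W}
    (hf : (D.atl G).Sm f) (i : A.ι) (v : G) {z : Cn n} (hz : z ∈ (A.e i).target) :
    ContDiffAt ℝ ∞ (rd D f i v) z :=
  (hf (i, v)).contDiffAt ((A.e i).open_target.mem_nhds hz)

/-- the jet of a map -/
abbrev tj (D : MonD A G) (f : D.cov G → H) (i : A.ι) (v : G) (z : Cn n) : Fin n → H :=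
  th (rd D f i v) z

theorem jt_th {b : M → H} {f : D.cov G → H} (hf : Eqv D M r b f) : Jt D M r (tj D f) where
  law i j v x hx := by
    have h1 : tj D f i v (A.e i x) =
        th (fun z => rd D f j (D.c i j x * v) (A.e j ((A.e i).symm z))) (A.e i x) :=
      funext fun b => wd_congr (rd_ev f v hx) _
    have h2 := dif (sm_rd hf.sm j (D.c i j x * v) ((A.e j).map_source hx.2))
    rw [h1, th_comp (by rw [(A.e i).left_inv hx.1]; exact h2) (tr_dif hx), Cf_tr hx,
      (A.e i).left_inv hx.1]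
  inv m i v z hz := by
    funext c
    have h1 : rd D f i (v * (m : G)⁻¹) = fun w =>
        (r.π m).toContinuousLinearEquiv.toContinuousLinearMap (rd D f i v w) + b m := by
      rw [rd_deck]
      funext w
      exact hf.eqv m _
    have h2 := dif (sm_rd hf.sm i v hz)
    have h3 : DifferentiableAt ℝ (fun w =>
        (r.π m).toContinuousLinearEquiv.toContinuousLinearMap (rd D f i v w)) z :=
      (((r.π m).toContinuousLinearEquiv.toContinuousLinearMap.restrictScalars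
        ℝ).differentiableAt).comp z h2
    change wd (false, c) (rd D f i (v * (m : G)⁻¹)) z = _
    rw [h1, wd_add h3 (differentiableAt_const _), wd_const, add_zero]
    exact wd_clm h2 _ _
  cont i v c z hz :=
    (contDiffAt_wd (sm_rd hf.sm i v hz) (false, c)).continuousAt.continuousWithinAt

/-- invariant families of tensors -/
structure Tn (D : MonD A G) (M : Subgroup G) (Y : A.ι → G → Cn n → Mt n) : Prop where
  law : ∀ i j v, ∀ x ∈ (A.e i).source ∩ (A.e j).source,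
    ((Jm A i j x)ᵀ)ᴴ * Y i v (A.e i x) * (Jm A i j x)ᵀ =
      ((‖((Jm A i j x)ᵀ).det‖ ^ 2 : ℝ) : ℂ) • Y j (D.c i j x * v) (A.e j x)
  inv : ∀ m ∈ M, ∀ i v, ∀ z ∈ (A.e i).target, Y i (v * m⁻¹) z = Y i v z
  cont : ∀ i v s p, ContinuousOn (fun z => Y i v z s p) (A.e i).target

variable {Y : A.ι → G → Cn n → Mt n}

theorem cont_ip {ι : Type*} [Fintype ι] {U : Set (Cn n)} {Z : Cn n → Matrix ι ι ℂ}
    {u u' : Cn n → ι → H} (hZ : ∀ s p, ContinuousOn (fun z => Z z s p) U)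
    (h : ∀ b, ContinuousOn (fun z => u z b) U) (h' : ∀ b, ContinuousOn (fun z => u' z b) U) :
    ContinuousOn (fun z => ip (Z z) (u z) (u' z)) U := by
  simp only [ip_eq]
  exact continuousOn_finsetSum _ fun s _ => continuousOn_finsetSum _ fun p _ =>
    (hZ s p).mul (ContinuousOn.inner (𝕜 := ℂ) (h s) (h' p))

/-- the basic density -/
theorem den_ip (hd : Dat D M a) (hY : Tn D M Y) (h : Jt D M r θ) (h' : Jt D M r θ')
    {w : Cn q → ℂ} (hw : Continuous w) (hR : ∀ x, R < ‖x‖ → w x = 0) :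
    Den D M a R fun i v z => w (rd D a i v z) * ip (Y i v z) (θ i v z) (θ' i v z) where
  law i j v x hx := by
    rw [h.law i j v x hx, h'.law i j v x hx, ← ip_conj, hY.law i j v x hx, ip_smul,
      rd_law a v hx, Matrix.det_transpose, mul_left_comm]
  inv m hm i v z hz := by
    rw [h.inv ⟨m, hm⟩ i v z hz, h'.inv ⟨m, hm⟩ i v z hz, hY.inv m hm i v z hz, rd_inv hd hm]
    exact congrArg _ (ip_iso (r.π ⟨m, hm⟩).toLinearIsometry _ _ _)
  cont i v := (hw.comp_continuousOn (hol_rd hd i v).continuousOn).mul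
    (cont_ip (hY.cont i v) (h.cont i v) (h'.cont i v))
  supp i v z _ h1 := by rw [hR _ h1, zero_mul]

theorem Den.re {Φ : A.ι → G → Cn n → ℂ} (h : Den D M a R Φ) :
    Den D M a R fun i v z => ((Φ i v z).re : ℂ) where
  law i j v x hx := by rw [h.law i j v x hx, Complex.re_ofReal_mul, Complex.ofReal_mul]
  inv m hm i v z hz := by rw [h.inv m hm i v z hz]
  cont i v := (Complex.continuous_ofReal.comp Complex.continuous_re).comp_continuousOn (h.cont i v)
  supp i v z hz h1 := by rw [h.supp i v z hz h1]; simp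

/-- the real form of the basic density -/
theorem den_en (hd : Dat D M a) (hY : Tn D M Y) (h : Jt D M r θ)
    {w : Cn q → ℝ} (hw : Continuous w) (hR : ∀ x, R < ‖x‖ → w x = 0) :
    Den D M a R fun i v z => ((w (rd D a i v z) * en (Y i v z) (θ i v z) : ℝ) : ℂ) := by
  have := Den.re (den_ip hd hY h h (w := fun x => (w x : ℂ)) (Complex.continuous_ofReal.comp hw)
    fun x hx => by rw [hR x hx, Complex.ofReal_zero])
  simpa only [Complex.re_ofReal_mul, en] using this

/-- the matrix `da` in a chart -/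
abbrev Ca (D : MonD A G) (a : D.cov G → Cn q) (i : A.ι) (v : G) (z : Cn n) : Mr n q :=
  Cf (rd D a i v) z

theorem sm_Ca (hd : Dat D M a) (i : A.ι) (v : G) {z : Cn n} (hz : z ∈ (A.e i).target) :
    SM (Ca D a i v) z := Cf_sm (A.e i).open_target (hol_rd hd i v) hz

theorem tn_Qe (K : Kah A) (hd : Dat D M a) (ε : ℝ) :
    Tn D M fun i v z => Qe (gk K i z) (Ca D a i v z) ε where
  law i j v x hx := by rw [g_law K hx, Ca, Cf_law hd v hx, Qe_conj]
  inv m hm i v z _ := by rw [Ca, rd_inv hd hm]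
  cont i v s p z hz :=
    (Qe_sm (kf_gk K i) (hol_rd hd i v) ε hz s p).continuousAt.continuousWithinAt

theorem cont_GamR {m : ℕ} (S : FI n) (T : FI m) :
    Continuous fun C : Matrix (Fin n) (Fin m) ℂ => Crest.Agent.R273.GamR_155.GamR C S T := by
  unfold Crest.Agent.R273.GamR_155.GamR
  split_ifs
  · exact (continuous_id.matrix_submatrix _ _).matrix_det
  · exact continuous_const

theorem cont_vI : Continuous (vI : Mr n q → Matrix (FI n) (Fin n) ℂ) := by
  refine continuous_pi fun I => continuous_pi fun b => ?_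
  have h1 : Continuous fun C : Mr n q => tau C :=
    (continuous_pi fun S => continuous_pi fun T => cont_GamR S T).matrix_mulVec continuous_const
  exact (continuous_apply I).comp (continuous_const.matrix_mulVec h1)

theorem cont_of_SM {ι κ : Type} {U : Set (Cn n)} {m : Cn n → Matrix ι κ ℂ}
    (h : ∀ z ∈ U, SM m z) : ContinuousOn m U :=
  continuousOn_pi.2 fun s => continuousOn_pi.2 fun p z hz =>
    (h z hz s p).continuousAt.continuousWithinAt

theorem cont_ent {ι κ : Type} {U : Set (Cn n)} {m : Cn n → Matrix ι κ ℂ}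
    (h : ContinuousOn m U) (s : ι) (p : κ) : ContinuousOn (fun z => m z s p) U :=
  continuousOn_pi.1 (continuousOn_pi.1 h s) p

theorem cont_mul {ι κ σ : Type} [Fintype κ] {U : Set (Cn n)} {m : Cn n → Matrix ι κ ℂ}
    {m' : Cn n → Matrix κ σ ℂ} (h : ContinuousOn m U) (h' : ContinuousOn m' U) :
    ContinuousOn (fun z => m z * m' z) U :=
  (continuous_fst.matrix_mul continuous_snd).comp_continuousOn (h.prodMk h')

theorem cont_ct {ι κ : Type} {U : Set (Cn n)} {m : Cn n → Matrix ι κ ℂ} (h : ContinuousOn m U) :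
    ContinuousOn (fun z => (m z)ᴴ) U := (continuous_id.matrix_conjTranspose).comp_continuousOn h

theorem cont_vCa (hd : Dat D M a) (i : A.ι) (v : G) :
    ContinuousOn (fun z => vI (Ca D a i v z)) (A.e i).target :=
  cont_vI.comp_continuousOn (cont_of_SM fun _ hz => sm_Ca hd i v hz)

theorem cont_Gam : Continuous (Gam : Mt n → Matrix (FI n) (FI n) ℂ) := by
  exact continuous_pi fun S => continuous_pi fun T => cont_GamR (m := n) S T

theorem tn_Q0 (K : Kah A) (hd : Dat D M a) :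
    Tn D M fun i v z => Q0 (gk K i z) (Ca D a i v z) where
  law i j v x hx := by rw [g_law K hx, Ca, Cf_law hd v hx, Q0_conj (Jm_det_ne K hx)]
  inv m hm i v z _ := by rw [Ca, rd_inv hd hm]
  cont i v s p := by
    have h1 : ContinuousOn (fun z => (gk K i z)⁻¹) (A.e i).target := cont_of_SM fun z hz =>
      (kf_sm (kf_gk K i) hz).inv (kf_det (kf_gk K i) hz)
    have h0 : ContinuousOn (fun z => (gk K i z).det) (A.e i).target :=
      (continuous_id.matrix_det).comp_continuousOn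
        (cont_of_SM fun z hz => kf_sm (kf_gk K i) hz)
    exact h0.mul (cont_ent (cont_mul (cont_mul (cont_ct (cont_vCa hd i v))
      (cont_Gam.comp_continuousOn h1)) (cont_vCa hd i v)) s p)

theorem tn_Wm (K : Kah A) (hd : Dat D M a) {ε : ℝ} (hε : 0 < ε) {Z : Cn q → Mt q}
    (hZ : Continuous Z) : Tn D M fun i v z => Wm (gE (gk K i z) (Ca D a i v z) ε)
      (Ca D a i v z * Z (rd D a i v z) * (Ca D a i v z)ᴴ) where
  law i j v x hx := by
    rw [g_law K hx, Ca, Cf_law hd v hx, gE_conj, rd_law a v hx, ← Wm_conj (Jm_det_ne K hx),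
      Matrix.conjTranspose_mul]
    simp only [Matrix.mul_assoc]
  inv m hm i v z _ := by rw [Ca, rd_inv hd hm]
  cont i v s p := by
    have hC : ContinuousOn (Ca D a i v) (A.e i).target := cont_of_SM fun _ hz => sm_Ca hd i v hz
    have h1 := cont_mul (cont_mul hC (hZ.comp_continuousOn (hol_rd hd i v).continuousOn))
      (cont_ct hC)
    simp only [Wm_apply]
    exact continuousOn_finsetSum _ fun t _ => ContinuousOn.mul (fun z hz =>
      (kf_W4 (kf_gE (kf_gk K i) (hol_rd hd i v) hε) hz _ _).continuousAt.continuousWithinAt)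
      (cont_ent h1 _ _)

end

end Crest.Agent.X261.Fam69
end

-- ▼ part X261/Fam65/S
section

/-!
# Row 261, package FAM (helper65): the holomorphic limit of a minimising sequence

* `p2_Sl`, `n2_Sl` : the vertical energy is the norm of `∂f ∧ da`; `cont_Sl`, `cont_e0`;
* `sl_le` : `L²` norms of `Sl` on compact sets; `db_of_close` : weak `∂̄` passes to close sequences;
* `exists_S`, `orth_of`, `isMin_of`.
-/

set_option autoImplicit false
set_option linter.unusedSectionVars false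

open Set Filter Topology MeasureTheory Matrix
open scoped ComplexConjugate ComplexOrder InnerProductSpace ContDiff

namespace Crest.Agent.X261.Fam65

open Crest.Agent.R275.Geo Crest.Agent.R273.UCov_914 Crest.Agent.R273.Kah_333
open Crest.Agent.R273.Fock_243 Crest.Agent.R275.EDR890 Crest.Agent.R273.Hess_333
open Crest.Agent.R273.GamR_155
open Crest.Agent.X261.Fam Crest.Agent.X261.Rel.Act

noncomputable section

variable {n q : ℕ} {X : Type} [TopologicalSpace X] {A : Atl n X} {G : Type} [Group G]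

section flat

variable {H : Type*} [NormedAddCommGroup H] [InnerProductSpace ℂ H]

theorem p2_vI (g : Mt n) (C : Mr n q) (θ θ' : Fin n → H) :
    p2 g (ac (vI C) θ) (ac (vI C) θ') = ip (Q0 g C) θ θ' := by
  rw [Q0, ip_smul, ip_conj, p2]

theorem p2_Sl (g : Mt n) (a : Cn n → Cn q) (u F : Cn n → H) (z : Cn n) :
    p2 g (Sl a u z) (Sl a F z) = ip (Q0 g (Cf a z)) (th u z) (th F z) := p2_vI g _ _ _

theorem n2_vI (g : Mt n) (C : Mr n q) (θ : Fin n → H) : n2 g (ac (vI C) θ) = e0 g C θ :=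
  congrArg Complex.re (p2_vI g C θ θ)

theorem n2_Sl (g : Mt n) (a : Cn n → Cn q) (F F' : Cn n → H) (z : Cn n) :
    n2 g (Sl a F z - Sl a F' z) = e0 g (Cf a z) (th F z - th F' z) := by
  rw [← n2_vI, ac_sub]
  rfl

theorem cont_vI (I : FI n) (b : Fin n) : Continuous fun C : Mr n q => vI C I b := by
  have h : ∀ J K, Continuous fun C : Mr n q => GamR C J K := fun J K => by
    unfold GamR
    split_ifs with h
    · exact (continuous_id.matrix_submatrix _ _).matrix_det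
    · exact continuous_const
  simp only [vI, tau, Matrix.of_apply, Matrix.mulVec, dotProduct]
  fun_prop

variable {U : Set (Cn n)} {a : Cn n → Cn q} {F F' : Cn n → H}

theorem cont_Cf (hU : IsOpen U) (ha : DifferentiableOn ℂ a U) : ContinuousOn (Cf a) U :=
  continuousOn_pi.2 fun b => continuousOn_pi.2 fun h _ hz =>
    (Fs.Cf_sm hU ha hz b h).continuousAt.continuousWithinAt

theorem cont_th (hU : IsOpen U) (hF : ContDiffOn ℝ ∞ F U) (b : Fin n) :
    ContinuousOn (fun z => th F z b) U := (contDiffOn_wd hU hF _).continuousOn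

theorem cont_Sl (hU : IsOpen U) (ha : DifferentiableOn ℂ a U) (hF : ContDiffOn ℝ ∞ F U)
    (I : FI n) : ContinuousOn (fun z => Sl a F z I) U :=
  continuousOn_finsetSum (f := fun b z => vI (Cf a z) I b • th F z b) Finset.univ fun b _ =>
    ((cont_vI I b).comp_continuousOn (cont_Cf hU ha)).smul (cont_th hU hF b)

theorem Sl_zero {u : Cn n → H} {z : Cn n} (hz : z ∉ tsupport u) : Sl a u z = 0 := by
  funext I
  simp [Sl, ac, th, Mol.wd_zero hz]

theorem norm_pair_le {K : Set (Cn n)} (hK : IsCompact K) {c : Cn n → ℂ} {g : Cn n → H}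
    (hc : ContinuousOn c K) (hg : ContinuousOn g K) {s : ℝ} (hs : 0 < s) :
    ‖∫ z in K, c z • g z‖ ≤ s / 2 * (∫ z in K, ‖c z‖ ^ 2) + 1 / (2 * s) * ∫ z in K, ‖g z‖ ^ 2 := by
  have i1 := ((hc.norm.fun_pow 2).integrableOn_compact (μ := volume) hK).const_mul (s / 2)
  have i2 := ((hg.norm.fun_pow 2).integrableOn_compact (μ := volume) hK).const_mul (1 / (2 * s))
  rw [← integral_const_mul, ← integral_const_mul, ← integral_add i1 i2]
  exact norm_integral_le_of_norm_le (i1.add i2) (Eventually.of_forall fun z => by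
    rw [norm_smul]
    exact amgm _ _ s hs)

/-- `x ≤ s a + b / s` with `b` small -/
theorem tendsto_of_am {x b : ℕ → ℝ} {a : ℝ} (hb : Tendsto b atTop (𝓝 0))
    (h : ∀ s, 0 < s → ∀ k, |x k| ≤ s / 2 * a + 1 / (2 * s) * b k) : Tendsto x atTop (𝓝 0) := by
  refine Metric.tendsto_nhds.2 fun ε hε => ?_
  obtain ⟨s, hs, h1⟩ := Mol.small (abs_nonneg a) hε
  have h2 := hb.const_mul (1 / (2 * s))
  rw [mul_zero] at h2
  filter_upwards [h2.eventually (gt_mem_nhds (half_pos hε))] with k hk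
  rw [Real.dist_eq, sub_zero]
  nlinarith [h s hs k, h1 s le_rfl, mul_le_mul_of_nonneg_left (le_abs_self a) hs.le]

end flat

variable {H : Type} [NormedAddCommGroup H] [InnerProductSpace ℂ H] {D : MonD A G} {M : Subgroup G}
  {a : D.cov G → Cn q} {f : ℕ → D.cov G → H} {S : A.ι → G → X → FI n → H} {i : A.ι}

theorem hol_rd (hd : Dat D M a) (i : A.ι) (v : G) :
    DifferentiableOn ℂ (rd D a i v) (A.e i).target := by
  have := hd.hol (i, v)
  rwa [preimage_univ, inter_univ] at this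

theorem sm_rd {g : D.cov G → H} (hg : (D.atl G).Sm g) (i : A.ι) (v : G) :
    ContDiffOn ℝ ∞ (rd D g i v) (A.e i).target := hg (i, v)

theorem cont_e0 (K : Kah A) {b : Cn n → Cn q} (hb : DifferentiableOn ℂ b (A.e i).target)
    {F F' : Cn n → H} (hF : ContDiffOn ℝ ∞ F (A.e i).target)
    (hF' : ContDiffOn ℝ ∞ F' (A.e i).target) : ContinuousOn
      (fun z => e0 (K.g i ((A.e i).symm z)) (Cf b z) (th F z - th F' z)) (A.e i).target := by
  simp only [← n2_Sl]
  exact Fam77.cont_n2 K i subset_rfl fun I =>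
    (cont_Sl (A.e i).open_target hb hF I).sub (cont_Sl (A.e i).open_target hb hF' I)

/-- the `L²` norm of `Sl` is bounded by the vertical energy -/
theorem sl_le (K : Kah A) {Kc : Set (Cn n)} (hK : IsCompact Kc) (hs : Kc ⊆ (A.e i).target) :
    ∃ C : ℝ, 0 < C ∧ ∀ (b : Cn n → Cn q) (F F' : Cn n → H), DifferentiableOn ℂ b (A.e i).target →
      ContDiffOn ℝ ∞ F (A.e i).target → ContDiffOn ℝ ∞ F' (A.e i).target → ∀ I,
      ∫ z in Kc, ‖Sl b F z I - Sl b F' z I‖ ^ 2 ≤
        C * ∫ z in Kc, e0 (K.g i ((A.e i).symm z)) (Cf b z) (th F z - th F' z) := by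
  obtain ⟨C, h0, hC⟩ := Fam77.exists_lo K i hK hs
  refine ⟨C, h0, fun b F F' hb hF hF' I => ?_⟩
  rw [← integral_const_mul]
  refine integral_mono_of_nonneg (Eventually.of_forall fun _ => sq_nonneg _)
    ((((cont_e0 K hb hF hF').mono hs).integrableOn_compact hK).const_mul C)
    ((ae_restrict_iff' hK.measurableSet).2 (Eventually.of_forall fun z hz => ?_))
  exact (hC z hz (Sl b F z - Sl b F' z) I).trans_eq (congrArg _ (n2_Sl _ _ _ _ _))

/-- small pairings pass to sequences which are close in energy -/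
theorem db_of_close (K : Kah A) {b : Cn n → Cn q} (hb : DifferentiableOn ℂ b (A.e i).target)
    {g : ℕ → Cn n → H} (hg : ∀ k, ContDiffOn ℝ ∞ (g k) (A.e i).target) {c : Cn n → ℂ}
    (hc : Continuous c) {Kc : Set (Cn n)} (hK : IsCompact Kc) (hs : Kc ⊆ (A.e i).target)
    (h0 : ∀ z ∉ Kc, c z = 0) (I : FI n)
    (h : ∀ δ : ℝ, 0 < δ → ∃ F : Cn n → H, ContDiffOn ℝ ∞ F (A.e i).target ∧
      ‖∫ z, c z • Sl b F z I‖ ^ 2 ≤ δ ∧ ∀ᶠ k in atTop,
        ∫ z in Kc, e0 (K.g i ((A.e i).symm z)) (Cf b z) (th F z - th (g k) z) ≤ δ) :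
    Tendsto (fun k => ∫ z, c z • Sl b (g k) z I) atTop (𝓝 0) := by
  obtain ⟨C, hC0, hC⟩ := sl_le (H := H) (q := q) K hK hs
  have hU := (A.e i).open_target
  have h1 : ∀ F : Cn n → H, ∫ z, c z • Sl b F z I = ∫ z in Kc, c z • Sl b F z I := fun F =>
    (setIntegral_eq_integral_of_forall_compl_eq_zero fun z hz => by rw [h0 z hz, zero_smul]).symm
  have h2 : ∀ F : Cn n → H, ContDiffOn ℝ ∞ F (A.e i).target →
      IntegrableOn (fun z => c z • Sl b F z I) Kc := fun F hF =>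
    (hc.continuousOn.smul ((cont_Sl hU hb hF I).mono hs)).integrableOn_compact hK
  refine Metric.tendsto_nhds.2 fun ε hε => ?_
  obtain ⟨s, hs0, h3⟩ := Mol.small (a := ∫ z in Kc, ‖c z‖ ^ 2)
    (integral_nonneg fun _ => sq_nonneg _) (half_pos hε)
  obtain ⟨t, ht0, h4⟩ := Mol.small (a := 1 / (2 * s) * C) (by positivity) (half_pos (half_pos hε))
  obtain ⟨F, hF, h5, h6⟩ := h (min t ((ε / 4) ^ 2)) (lt_min ht0 (by positivity))
  filter_upwards [h6] with k hk
  have h7 := norm_pair_le hK hc.continuousOn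
    (((cont_Sl hU hb hF I).sub (cont_Sl hU hb (hg k) I)).mono hs) hs0
  simp only [Pi.sub_apply, smul_sub] at h7
  rw [integral_sub (h2 F hF) (h2 _ (hg k)), ← h1, ← h1] at h7
  have h8 := mul_le_mul_of_nonneg_left (hC b F (g k) hb hF (hg k) I)
    (by positivity : 0 ≤ 1 / (2 * s))
  have h9 := h4 _ (hk.trans (min_le_left _ _))
  have h10 : ‖∫ z, c z • Sl b F z I‖ ≤ ε / 4 :=
    (pow_le_pow_iff_left₀ (norm_nonneg _) (by positivity) two_ne_zero).1
      (h5.trans (min_le_right _ _))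
  have h11 := norm_sub_norm_le (∫ z, c z • Sl b (g k) z I) (∫ z, c z • Sl b F z I)
  rw [norm_sub_rev] at h11
  rw [dist_zero_right]
  nlinarith [h3 s le_rfl, (integral_nonneg fun _ => sq_nonneg _ : 0 ≤ ∫ z in Kc, ‖c z‖ ^ 2)]

variable [CompleteSpace H]

theorem exists_S (hol : HolStmt) (hd : Dat D M a) (hf : ∀ k, (D.atl G).Sm (f k))
    (cau : ∀ i v, ∀ Kc ⊆ (A.e i).target, IsCompact Kc → ∀ I, ∀ η : ℝ, 0 < η → ∃ N, ∀ k ≥ N,
      ∀ l ≥ N, ∫ z in Kc, ‖Sl (rd D a i v) (rd D (f k) i v) z I -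
        Sl (rd D a i v) (rd D (f l) i v) z I‖ ^ 2 ≤ η)
    (db : ∀ i v, ∀ z₀ ∈ (A.e i).target, ∃ V ∈ 𝓝 z₀, ∀ χ : Cn n → ℝ, ContDiff ℝ ∞ χ →
      HasCompactSupport χ → tsupport χ ⊆ V → ∀ b I, Tendsto (fun k => ∫ z,
        wd (true, b) (cu χ) z • Sl (rd D a i v) (rd D (f k) i v) z I) atTop (𝓝 0)) :
    ∃ S : A.ι → G → X → FI n → H, (∀ i v I, DifferentiableOn ℂ
      (fun z => S i v ((A.e i).symm z) I) (A.e i).target) ∧ Lm D a f S := by
  choose T h1 h2 using fun i v I => hol n H (A.e i).target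
    (fun k z => Sl (rd D a i v) (rd D (f k) i v) z I) (A.e i).open_target
    (fun k => cont_Sl (A.e i).open_target (hol_rd hd i v) (sm_rd (hf k) i v) I)
    (fun Kc hs hK => cau i v Kc hs hK I) fun z₀ hz => (db i v z₀ hz).imp fun V hV =>
      ⟨hV.1, fun χ a1 a2 a3 b => hV.2 χ a1 a2 a3 b I⟩
  refine ⟨fun i v x I => T i v I (A.e i x), fun i v I => (h1 i v I).congr fun z hz => ?_,
    fun i v Kc hs hK I => (h2 i v I Kc hs hK).congr fun k =>
      setIntegral_congr_fun hK.measurableSet fun z hz => ?_⟩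
  · simp only [(A.e i).right_inv hz]
  · simp only [(A.e i).right_inv (hs hz)]

/-- pairings with a test form converge -/
theorem tendsto_p2 (K : Kah A) (hd : Dat D M a) (hf : ∀ k, (D.atl G).Sm (f k))
    (hS : ∀ i v I, ContinuousOn (fun z => S i v ((A.e i).symm z) I) (A.e i).target)
    (hL : Lm D a f S) (i : A.ι) (v : G) {B : Cn n → FI n → H} {Kc : Set (Cn n)}
    (hK : IsCompact Kc) (hs : Kc ⊆ (A.e i).target) (hB : ∀ I, ContinuousOn (fun z => B z I) Kc) :
    Tendsto (fun k => ∫ z in Kc, (p2 (K.g i ((A.e i).symm z)) (B z)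
      (Sl (rd D a i v) (rd D (f k) i v) z)).re) atTop
      (𝓝 (∫ z in Kc, (p2 (K.g i ((A.e i).symm z)) (B z) (S i v ((A.e i).symm z))).re)) := by
  obtain ⟨C, hC0, hC⟩ := Fam77.exists_hi K i hK hs
  have h1 := fun k I => (cont_Sl (A.e i).open_target (hol_rd hd i v) (sm_rd (hf k) i v) I).mono hs
  have h2 := fun I => (hS i v I).mono hs
  have h3 := (tendsto_finsetSum Finset.univ fun I _ => hL i v Kc hs hK I).const_mul C
  rw [Finset.sum_const_zero, mul_zero] at h3
  rw [← tendsto_sub_nhds_zero_iff]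
  refine tendsto_of_am (a := ∫ z in Kc, n2 (K.g i ((A.e i).symm z)) (B z)) h3 fun s hs0 k => ?_
  have i0 := fun I =>
    (((h1 k I).fun_sub (h2 I)).norm.fun_pow 2).integrableOn_compact (μ := volume) hK
  have i1 := ((Fam77.cont_n2 K i hs hB).integrableOn_compact (μ := volume) hK).const_mul (s / 2)
  have i2 := ((integrable_finsetSum Finset.univ fun I _ => i0 I).const_mul C).const_mul
    (1 / (2 * s))
  rw [← integral_sub ((Complex.continuous_re.comp_continuousOn'
    (Fam77.cont_p2 K i hs hB (h1 k))).integrableOn_compact hK)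
    ((Complex.continuous_re.comp_continuousOn' (Fam77.cont_p2 K i hs hB h2)).integrableOn_compact
      hK), ← integral_finsetSum _ fun I _ => i0 I, ← integral_const_mul, ← integral_const_mul,
    ← integral_const_mul, ← integral_add i1 i2, ← Real.norm_eq_abs]
  refine norm_integral_le_of_norm_le (i1.add i2)
    ((ae_restrict_iff' hK.measurableSet).2 (Eventually.of_forall fun z hz => ?_))
  have hg : (K.g i ((A.e i).symm z)).PosDef := Fam77.gr_pos K i (hs hz)
  have h4 := mul_le_mul_of_nonneg_left (norm_ip_le (gam_psd hg.inv) (B z)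
    (Sl (rd D a i v) (rd D (f k) i v) z - S i v ((A.e i).symm z)) s hs0) (det_re_pos hg).le
  have h5 := mul_le_mul_of_nonneg_left (hC z hz
    (Sl (rd D a i v) (rd D (f k) i v) z - S i v ((A.e i).symm z)))
    (by positivity : 0 ≤ 1 / (2 * s))
  rw [Fam77.n2_eq hg] at h5
  refine le_trans ?_ (h4.trans ((le_of_eq ?_).trans (add_le_add le_rfl h5)))
  · simp only [p2]
    rw [← Complex.sub_re, ← mul_sub, ← ip_sub_right]
    refine (Complex.abs_re_le_norm _).trans_eq ?_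
    rw [norm_mul]
    congr 1
    exact (congrArg norm (det_ofReal hg)).trans
      ((Complex.norm_real _).trans (Real.norm_of_nonneg (det_re_pos hg).le))
  · rw [Fam77.n2_eq hg]
    ring

theorem orth_of (K : Kah A) (hd : Dat D M a) (hf : ∀ k, (D.atl G).Sm (f k))
    (hS : ∀ i v I, ContinuousOn (fun z => S i v ((A.e i).symm z) I) (A.e i).target)
    (hL : Lm D a f S) (i : A.ι) (v : G) {u : Cn n → H} (hu : ContDiff ℝ ∞ u)
    (hc : HasCompactSupport u) (hs : tsupport u ⊆ (A.e i).target)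
    (el : Tendsto (fun k => ∫ z, (ip (Q0 (K.g i ((A.e i).symm z)) (Cf (rd D a i v) z)) (th u z)
      (th (rd D (f k) i v) z)).re) atTop (𝓝 0)) :
    ∫ z, (p2 (K.g i ((A.e i).symm z)) (Sl (rd D a i v) u z) (S i v ((A.e i).symm z))).re = 0 := by
  have h1 := tendsto_p2 K hd hf hS hL i v hc hs fun I =>
    (cont_Sl (A.e i).open_target (hol_rd hd i v) hu.contDiffOn I).mono hs
  have h2 : ∀ T : Cn n → FI n → H, ∫ z in tsupport u, (p2 (K.g i ((A.e i).symm z))
      (Sl (rd D a i v) u z) (T z)).re =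
      ∫ z, (p2 (K.g i ((A.e i).symm z)) (Sl (rd D a i v) u z) (T z)).re := fun T =>
    setIntegral_eq_integral_of_forall_compl_eq_zero fun z hz => by simp [Sl_zero hz, p2, ip, dt]
  simp only [h2] at h1
  simp only [p2_Sl] at h1
  exact tendsto_nhds_unique h1 el

/-- **the limit of a minimising sequence** -/
theorem isMin_of (hol : HolStmt) (K : Kah A) (hd : Dat D M a) {r : Rep M H} {b : M → H}
    (hf : ∀ k, Eqv D M r b (f k))
    (cau : ∀ i v, ∀ Kc ⊆ (A.e i).target, IsCompact Kc → ∀ η : ℝ, 0 < η → ∃ N, ∀ k ≥ N, ∀ l ≥ N,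
      ∫ z in Kc, e0 (K.g i ((A.e i).symm z)) (Cf (rd D a i v) z)
        (th (rd D (f k) i v) z - th (rd D (f l) i v) z) ≤ η)
    (db : ∀ i v, ∀ z₀ ∈ (A.e i).target, ∃ V ∈ 𝓝 z₀, ∀ χ : Cn n → ℝ, ContDiff ℝ ∞ χ →
      HasCompactSupport χ → tsupport χ ⊆ V → ∀ b I, Tendsto (fun k => ∫ z,
        wd (true, b) (cu χ) z • Sl (rd D a i v) (rd D (f k) i v) z I) atTop (𝓝 0))
    (el : ∀ i v (u : Cn n → H), ContDiff ℝ ∞ u → HasCompactSupport u →
      tsupport u ⊆ (A.e i).target → (∀ z, r.J (u z) = u z) →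
      Tendsto (fun k => ∫ z, (ip (Q0 (K.g i ((A.e i).symm z)) (Cf (rd D a i v) z)) (th u z)
        (th (rd D (f k) i v) z)).re) atTop (𝓝 0)) :
    ∃ S : A.ι → G → X → FI n → H, Lm D a f S ∧ IsMin D K M a r b S := by
  obtain ⟨S, h1, h2⟩ := exists_S hol hd (fun k => (hf k).sm) (fun i v Kc hs hK I η hη => by
    obtain ⟨C, hC0, hC⟩ := sl_le (H := H) (q := q) K hK hs
    obtain ⟨N, hN⟩ := cau i v Kc hs hK (η / C) (div_pos hη hC0)
    exact ⟨N, fun k hk l hl => (hC _ _ _ (hol_rd hd i v) (sm_rd (hf k).sm i v)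
      (sm_rd (hf l).sm i v) I).trans ((le_div_iff₀' hC0).1 (hN k hk l hl))⟩) db
  exact ⟨S, h2, h1, ⟨f, hf, h2⟩, fun i v u a1 a2 a3 a4 => orth_of K hd (fun k => (hf k).sm)
    (fun i v I => (h1 i v I).continuousOn) h2 i v a1 a2 a3 (el i v u a1 a2 a3 a4)⟩

end

end Crest.Agent.X261.Fam65
end

-- ▼ part X261/Fam13/Main
section

/-!
# Row 261, package FAM (helper13), part Main: the fibre energy is constant, the limit is holomorphic

`exStmt_of : SumStmt → LioStmt → HolStmt → NrStmt → ExStmt`.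
-/

set_option autoImplicit false
set_option linter.unusedSectionVars false

open Set Filter Topology MeasureTheory Matrix
open scoped ComplexConjugate ComplexOrder InnerProductSpace ContDiff NNReal

namespace Crest.Agent.X261.Fam13

open Crest.Agent.R275.Geo Crest.Agent.R275.Core144 Crest.Agent.R273.UCov_914
open Crest.Agent.R275.EDR890 Crest.Agent.R273.Hess_333
open Crest.Agent.R273.Kah_333 Crest.Agent.R273.Fock_243
open Crest.Agent.X261.Fam Crest.Agent.X261.Fam69
open Crest.Agent.X261.Rel.Act (Rep Act)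

noncomputable section

variable {n q : ℕ} {H : Type} [NormedAddCommGroup H] [InnerProductSpace ℂ H]

/-! ### elementary facts -/

theorem le_of_eta {x y : ℝ} (C : ℝ) (h : ∀ η : ℝ, 0 < η → x ≤ y + C * η) : x ≤ y := by
  have h1 : Tendsto (fun η : ℝ => y + C * η) (𝓝[>] 0) (𝓝 (y + C * 0)) :=
    ((continuous_const.add (continuous_const.mul continuous_id)).tendsto 0).mono_left
      nhdsWithin_le_nhds
  rw [mul_zero, add_zero] at h1
  exact ge_of_tendsto h1 (eventually_nhdsWithin_of_forall h)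

theorem exR {W : Type*} [Zero W] {w : Cn q → W} (hw : HasCompactSupport w) :
    ∃ R : ℝ, ∀ x, R < ‖x‖ → w x = 0 :=
  let ⟨R, _, h⟩ := hw.exists_pos_le_norm
  ⟨R, fun x hx => h x hx.le⟩

theorem hcs_of {W : Type*} [Zero W] {w : Cn q → W} {R : ℝ} (h : ∀ x, R < ‖x‖ → w x = 0) :
    HasCompactSupport w :=
  HasCompactSupport.intro (isCompact_closedBall 0 R) fun x hx => h x (by simpa using hx)

theorem mL_inv {L : Mt q} (hL : L.det ≠ 0) (x : Cn q) : mL L⁻¹ (mL L x) = x := by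
  rw [← mul_apply_eq_comp, mL, mL, ← map_mul, Matrix.nonsing_inv_mul _ hL.isUnit,
    map_one, one_apply_eq_self]

theorem norm_le_mL {L : Mt q} (hL : L.det ≠ 0) (x : Cn q) : ‖x‖ ≤ ‖mL L⁻¹‖ * ‖mL L x‖ := by
  conv_lhs => rw [← mL_inv hL x]
  exact (mL L⁻¹).le_opNorm _

theorem hcs_mL {W : Type*} [Zero W] {L : Mt q} (hL : L.det ≠ 0) {w : Cn q → W}
    (hw : HasCompactSupport w) : HasCompactSupport fun x => w (mL L x) := by
  obtain ⟨R, hR⟩ := exR hw
  refine hcs_of (R := ‖mL L⁻¹‖ * R) fun x hx => hR _ (lt_of_not_ge fun h => ?_)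
  exact absurd ((norm_le_mL hL x).trans (mul_le_mul_of_nonneg_left h (norm_nonneg _))) hx.not_ge

theorem aL_one {Y : Type*} (a : Y → Cn q) : aL 1 a = a := by
  funext e
  rw [aL, mL, map_one, one_apply_eq_self]

theorem c1_nonneg (q : ℕ) : 0 ≤ c1 q := by unfold c1; positivity

theorem e0_near {G : Mt n} (hG : G.PosDef) (C : Mr n q) (θ θ' : Fin n → H) {s : ℝ} (hs : 0 < s) :
    |e0 G C θ - e0 G C θ'| ≤ s * e0 G C θ' + (1 + 1 / s) * e0 G C (θ - θ') := by
  have hX := Q0_psd hG C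
  have h1 := en_add_smul hX.isHermitian θ' (θ - θ') 1
  rw [Complex.ofReal_one, one_smul, add_sub_cancel, re_ip_comm hX.isHermitian] at h1
  have h2 := (Complex.abs_re_le_norm _).trans (norm_ip_le hX θ' (θ - θ') s hs)
  have h3 := en_nonneg hX (θ - θ')
  have e : 1 / (2 * s) * en (Q0 G C) (θ - θ') = 1 / s * en (Q0 G C) (θ - θ') / 2 := by
    field_simp
  unfold e0
  rw [e] at h2
  rw [abs_le] at h2 ⊢
  constructor <;> nlinarith [h2.1, h2.2]

/-- the sum of the norms of the entries -/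
def nZ (Z : Cn q → Mt q) (x : Cn q) : ℝ := ∑ k, ∑ l, ‖Z x k l‖

theorem nZ_nonneg (Z : Cn q → Mt q) (x : Cn q) : 0 ≤ nZ Z x := by unfold nZ; positivity

theorem le_nZ (Z : Cn q → Mt q) (x : Cn q) (k l : Fin q) : ‖Z x k l‖ ≤ nZ Z x :=
  (Finset.single_le_sum (f := fun l => ‖Z x k l‖) (fun _ _ => norm_nonneg _)
    (Finset.mem_univ l)).trans (Finset.single_le_sum (f := fun k => ∑ l, ‖Z x k l‖)
      (fun _ _ => by positivity) (Finset.mem_univ k))

theorem tr_le_nZ (Z : Cn q → Mt q) (x : Cn q) : |(Z x).trace.re| ≤ nZ Z x :=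
  (Complex.abs_re_le_norm _).trans ((norm_sum_le _ _).trans (Finset.sum_le_sum fun k _ =>
    Finset.single_le_sum (f := fun l => ‖Z x k l‖) (fun _ _ => norm_nonneg _) (Finset.mem_univ k)))

theorem cont_nZ {Z : Cn q → Mt q} (hZ : Continuous Z) : Continuous (nZ Z) :=
  continuous_finsetSum _ fun k _ => continuous_finsetSum _ fun l _ =>
    ((continuous_apply l).comp ((continuous_apply k).comp hZ)).norm

theorem hcs_nZ {Z : Cn q → Mt q} (hZ : HasCompactSupport Z) : HasCompactSupport (nZ Z) :=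
  hZ.comp_left (g := fun Y : Mt q => ∑ k, ∑ l, ‖Y k l‖) (by simp)

theorem cont_tr {Z : Cn q → Mt q} (hZ : Continuous Z) : Continuous fun x => (Z x).trace.re :=
  Complex.continuous_re.comp hZ.matrix_trace

section test

variable {ψ : Cn q → ℝ}

theorem sm_cu (h : ContDiff ℝ ∞ ψ) : ContDiff ℝ ∞ (cu ψ) := Complex.ofRealCLM.contDiff.comp h

theorem hcs_cu (h : HasCompactSupport ψ) : HasCompactSupport (cu ψ) :=
  h.comp_left (g := fun t : ℝ => (t : ℂ)) Complex.ofReal_zero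

theorem cont_Zc (h : ContDiff ℝ ∞ ψ) (c : Fin q → ℂ) : Continuous (Zc c ψ) :=
  continuous_pi fun _ => continuous_pi fun _ =>
    continuous_const.mul (T223.Cov.contDiff_wd (sm_cu h) _).continuous

theorem cont_hess (h : ContDiff ℝ ∞ ψ) : Continuous (hess ψ) :=
  continuous_pi fun _ => continuous_pi fun _ =>
    (T223.Cov.contDiff_wd (T223.Cov.contDiff_wd (sm_cu h) _) _).continuous

theorem wd_off {f : Cn q → ℂ} {x : Cn q} (h : f =ᶠ[𝓝 x] fun _ => 0) (s : WI q) :
    wd s f =ᶠ[𝓝 x] fun _ => 0 :=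
  h.eventually_nhds.mono fun y hy => (wd_congr hy s).trans (wd_const 0 y s)

theorem cu_off {x : Cn q} (hx : x ∉ tsupport ψ) : cu ψ =ᶠ[𝓝 x] fun _ => 0 :=
  (notMem_tsupport_iff_eventuallyEq.1 hx).mono fun y hy => by simp [cu, hy]

theorem hcs_Zc (h : HasCompactSupport ψ) (c : Fin q → ℂ) : HasCompactSupport (Zc c ψ) :=
  HasCompactSupport.intro h fun x hx => by
    ext k l
    simp [Zc, (wd_off (cu_off hx) _).self_of_nhds]

theorem hcs_hess (h : HasCompactSupport ψ) : HasCompactSupport (hess ψ) :=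
  HasCompactSupport.intro h fun x hx => by
    ext k l
    simp [hess, (wd_off (wd_off (cu_off hx) _) _).self_of_nhds]

theorem int_hess (h : ContDiff ℝ ∞ ψ) (hc : HasCompactSupport ψ) :
    ∫ x, (hess ψ x).trace.re = 0 := by
  have h1 := fun k : Fin q => T223.Cov.contDiff_wd (sm_cu h) (true, k)
  have h2 := fun k : Fin q => T223.Cov.hcs_wd (hcs_cu hc) (true, k)
  have hi : ∀ k : Fin q, Integrable (wd (false, k) (wd (true, k) (cu ψ))) := fun k =>
    (T223.Cov.contDiff_wd (h1 k) _).continuous.integrable_of_hasCompactSupport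
      (T223.Cov.hcs_wd (h2 k) _)
  have h3 : ∫ x, (hess ψ x).trace = 0 := by
    change ∫ x, ∑ k, wd (false, k) (wd (true, k) (cu ψ)) x = 0
    rw [integral_finsetSum _ fun k _ => hi k]
    exact Finset.sum_eq_zero fun k _ => T223.Cov.int_wd_zero volume (h1 k) (h2 k) _
  have h4 := integral_re (𝕜 := ℂ) (f := fun x => (hess ψ x).trace)
    (integrable_finsetSum (μ := volume) Finset.univ fun k _ => hi k)
  rw [h3] at h4
  simpa using h4

end test

/-- a cut-off function which is at least one on a ball -/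
def ct (q : ℕ) (R : ℝ) (x : Cn q) : ℝ := max 0 (R + 1 - ‖x‖)

theorem cont_ct (R : ℝ) : Continuous (ct q R) :=
  continuous_const.max (continuous_const.sub continuous_norm)

theorem hcs_ct (R : ℝ) : HasCompactSupport (ct q R) :=
  hcs_of (R := R + 1) fun _ hx => max_eq_left (by linarith)

theorem ct_nonneg (R : ℝ) (x : Cn q) : 0 ≤ ct q R x := le_max_left _ _

theorem one_le_ct {R : ℝ} {x : Cn q} (h : ‖x‖ ≤ R) : 1 ≤ ct q R x :=
  le_max_of_le_right (by linarith)

/-! ### densities -/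

variable {X : Type} [TopologicalSpace X] {A : Atl n X} {G : Type} [Group G]
variable {D : MonD A G} {M : Subgroup G} {a : D.cov G → Cn q} {r : Rep M H}
variable {θ θ' : A.ι → G → Cn n → Fin n → H}

theorem dat_aL (hd : Dat D M a) {L : Mt q} (hL : L.det ≠ 0) : Dat D M (aL L a) where
  hol p := (mL L).differentiable.comp_differentiableOn (hd.hol p)
  inv m hm e := by rw [aL, aL, hd.inv m hm]
  prop R := by
    obtain ⟨Kc, h1, h2⟩ := hd.prop (‖mL L⁻¹‖ * R)
    exact ⟨Kc, h1, fun e he => h2 e ((norm_le_mL hL _).trans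
      (mul_le_mul_of_nonneg_left he (norm_nonneg _)))⟩

/-- a density -/
def Dn (D : MonD A G) (M : Subgroup G) (a : D.cov G → Cn q) (Φ : A.ι → G → Cn n → ℂ) : Prop :=
  ∃ R, Den D M a R Φ

theorem dn_e0 (K : Kah A) (hd : Dat D M a) (h : Jt D M r θ) {w : Cn q → ℝ} (hw : Continuous w)
    (hc : HasCompactSupport w) : Dn D M a fun i v z => ((w (rd D a i v z) *
      e0 (K.g i ((A.e i).symm z)) (Cf (rd D a i v) z) (θ i v z) : ℝ) : ℂ) :=
  let ⟨R, hR⟩ := exR hc
  ⟨R, den_en hd (tn_Q0 K hd) h hw hR⟩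

theorem dn_ee (K : Kah A) (hd : Dat D M a) (h : Jt D M r θ) {w : Cn q → ℝ} (hw : Continuous w)
    (hc : HasCompactSupport w) (ε : ℝ) : Dn D M a fun i v z => ((w (rd D a i v z) *
      ee (K.g i ((A.e i).symm z)) (Cf (rd D a i v) z) ε (θ i v z) : ℝ) : ℂ) :=
  let ⟨R, hR⟩ := exR hc
  ⟨R, den_en hd (tn_Qe K hd ε) h hw hR⟩

theorem dn_W (K : Kah A) (hd : Dat D M a) (h : Jt D M r θ) {Z : Cn q → Mt q} (hZ : Continuous Z)
    (hc : HasCompactSupport Z) {ε : ℝ} (hε : 0 < ε) (c : ℂ) : Dn D M a fun i v z => c *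
      ip (Wm (gE (K.g i ((A.e i).symm z)) (Cf (rd D a i v) z) ε)
        (Cf (rd D a i v) z * Z (rd D a i v z) * (Cf (rd D a i v) z)ᴴ)) (θ i v z) (θ i v z) := by
  obtain ⟨R, hR⟩ := exR hc
  have h1 := den_ip hd (tn_Wm K hd hε hZ) h h (R := R + 1)
    (w := fun x => ((min 1 (ct q R x) : ℝ) : ℂ))
    (Complex.continuous_ofReal.comp (continuous_const.min (cont_ct R))) fun x hx => by
      rw [ct, max_eq_left (by linarith), min_eq_right zero_le_one, Complex.ofReal_zero]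
  refine ⟨R + 1, (h1.congr fun i v z _ => ?_).smul c⟩
  by_cases h2 : ‖rd D a i v z‖ ≤ R
  · rw [min_eq_left (one_le_ct h2), Complex.ofReal_one, one_mul]
  · rw [hR _ (lt_of_not_ge h2), Matrix.mul_zero, Matrix.zero_mul, Wm_zero]
    simp [ip_eq]

variable [Finite A.ι] [Countable G] [T2Space X] (K : Kah A)

theorem lin3 (hd : Dat D M a) {Φ₁ Φ₂ Φ₃ Φ₄ : A.ι → G → Cn n → ℂ} (h1 : Dn D M a Φ₁)
    (h2 : Dn D M a Φ₂) (h3 : Dn D M a Φ₃) (h4 : Dn D M a Φ₄) (α β γ : ℝ)
    (e : ∀ i v, ∀ z ∈ (A.e i).target, (Φ₁ i v z).re ≤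
      α * (Φ₂ i v z).re + β * (Φ₃ i v z).re + γ * (Φ₄ i v z).re) :
    (IM D K M Φ₁).re ≤ α * (IM D K M Φ₂).re + β * (IM D K M Φ₃).re + γ * (IM D K M Φ₄).re := by
  obtain ⟨R₁, h1⟩ := h1
  obtain ⟨R₂, h2⟩ := h2
  obtain ⟨R₃, h3⟩ := h3
  obtain ⟨R₄, h4⟩ := h4
  set R := max (max R₁ R₂) (max R₃ R₄)
  replace h1 := h1.mono (R' := R) (le_max_of_le_left (le_max_left _ _))
  replace h2 := (h2.mono (R' := R) (le_max_of_le_left (le_max_right _ _))).smul α
  replace h3 := (h3.mono (R' := R) (le_max_of_le_right (le_max_left _ _))).smul β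
  replace h4 := (h4.mono (R' := R) (le_max_of_le_right (le_max_right _ _))).smul γ
  have := re_IM_mono K hd h1 ((h2.add h3).add h4) fun i v z hz => by
    simpa only [Complex.add_re, Complex.re_ofReal_mul] using e i v z hz
  rwa [IM_add K hd (h2.add h3) h4, IM_add K hd h2 h3, IM_smul, IM_smul, IM_smul, Complex.add_re,
    Complex.add_re, Complex.re_ofReal_mul, Complex.re_ofReal_mul, Complex.re_ofReal_mul] at this

theorem gpos (i : A.ι) {z : Cn n} (hz : z ∈ (A.e i).target) :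
    (K.g i ((A.e i).symm z)).PosDef := K.pos i _ ((A.e i).map_target hz)

/-- the horizontal test forms see the vertical energy -/
theorem RG_near (hd : Dat D M a) (h : Jt D M r θ) {Z : Cn q → Mt q} (hZ : Continuous Z)
    (hc : HasCompactSupport Z) {χ : Cn q → ℝ} (hχ : Continuous χ) (hχc : HasCompactSupport χ)
    (hle : ∀ x, nZ Z x ≤ χ x) {ε : ℝ} (hε : 0 < ε) :
    |(RG D K M a Z ε θ).re - E0 D K M a (fun x => (Z x).trace.re) θ| ≤
      c1 q * (Ee D K M a χ ε θ - E0 D K M a χ θ) := by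
  have d1 := dn_W K hd h hZ hc hε ((ε ^ q / ε : ℝ) : ℂ)
  have d2 := dn_e0 K hd h (cont_tr hZ) (hc.comp_left (g := fun Y : Mt q => Y.trace.re) (by simp))
  have d3 := dn_ee K hd h hχ hχc ε
  have d4 := dn_e0 K hd h hχ hχc
  have e := fun i v z (hz : z ∈ (A.e i).target) => abs_le.1 ((Complex.abs_re_le_norm _).trans
    (pw1 (gpos K i hz) (Cf (rd D a i v) z) hε ((nZ_nonneg Z _).trans (hle _))
      (fun k l => (le_nZ Z (rd D a i v z) k l).trans (hle _)) (θ i v z)))
  simp only [Complex.sub_re, Complex.re_mul_ofReal] at e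
  have h1 := lin3 K hd d1 d2 d3 d4 1 (c1 q) (-c1 q) fun i v z hz => by
    simp only [Complex.ofReal_re]; linarith [(e i v z hz).2]
  have h2 := lin3 K hd d2 d1 d3 d4 1 (c1 q) (-c1 q) fun i v z hz => by
    simp only [Complex.ofReal_re]; linarith [(e i v z hz).1]
  rw [IM_smul] at h1 h2
  unfold Fam69.RG E0 Ee
  rw [abs_le]
  constructor <;> linarith

theorem exc_mono (hd : Dat D M a) (h : Jt D M r θ) {ψ χ : Cn q → ℝ} (hψ : Continuous ψ)
    (hψc : HasCompactSupport ψ) (hχ : Continuous χ) (hχc : HasCompactSupport χ)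
    (hle : ∀ x, ψ x ≤ χ x) {ε : ℝ} (hε : 0 < ε) :
    Ee D K M a ψ ε θ - E0 D K M a ψ θ ≤ Ee D K M a χ ε θ - E0 D K M a χ θ := by
  have h1 := lin3 K hd (dn_ee K hd h hψ hψc ε) (dn_e0 K hd h hψ hψc) (dn_ee K hd h hχ hχc ε)
    (dn_e0 K hd h hχ hχc) 1 1 (-1) fun i v z hz => by
      simp only [Complex.ofReal_re]
      nlinarith [mul_nonneg (sub_nonneg.2 (hle (rd D a i v z)))
        (sub_nonneg.2 (e0_le_ee (gpos K i hz) (Cf (rd D a i v) z) hε (θ i v z)))]
  unfold E0 Ee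
  linarith

theorem E0_near (hd : Dat D M a) (h : Jt D M r θ) (h' : Jt D M r θ') {w χ : Cn q → ℝ}
    (hw : Continuous w) (hwc : HasCompactSupport w) (hχ : Continuous χ)
    (hχc : HasCompactSupport χ) (hle : ∀ x, |w x| ≤ χ x) {s : ℝ} (hs : 0 < s) :
    |E0 D K M a w θ - E0 D K M a w θ'| ≤ s * E0 D K M a χ θ' +
      (1 + 1 / s) * E0 D K M a χ fun i v z => θ i v z - θ' i v z := by
  have d1 := dn_e0 K hd h hw hwc
  have d2 := dn_e0 K hd h' hw hwc
  have d3 := dn_e0 K hd h' hχ hχc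
  have d4 := dn_e0 K hd (h.sub h') hχ hχc
  have e := fun i v z (hz : z ∈ (A.e i).target) => abs_le.1 ((abs_mul _ _).trans_le (mul_le_mul
    (hle (rd D a i v z)) (e0_near (gpos K i hz) (Cf (rd D a i v) z) (θ i v z) (θ' i v z) hs)
    (abs_nonneg _) ((abs_nonneg _).trans (hle _))))
  have h1 := lin3 K hd d1 d2 d3 d4 1 s (1 + 1 / s) fun i v z hz => by
    simp only [Complex.ofReal_re]; linarith [(e i v z hz).2]
  have h2 := lin3 K hd d2 d1 d3 d4 1 s (1 + 1 / s) fun i v z hz => by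
    simp only [Complex.ofReal_re]; linarith [(e i v z hz).1]
  unfold E0
  rw [abs_le]
  constructor <;> linarith

theorem E0_aL (hd : Dat D M a) (L : Mt q) (w : Cn q → ℝ) :
    E0 D K M (aL L a) w θ = ‖L.det‖ ^ 2 * E0 D K M a (fun x => w (mL L x)) θ := by
  unfold E0
  rw [← Complex.re_ofReal_mul, ← IM_smul]
  refine congrArg Complex.re (IM_congr K fun i v z hz => ?_)
  have h1 : Cf (rd D (aL L a) i v) z = Cf (rd D a i v) z * Lᵀ := by
    rw [← Cf_mL L (rd D a i v z)]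
    exact Cf_comp (mL L).differentiableAt
      ((hol_rd hd i v).differentiableAt ((A.e i).open_target.mem_nhds hz))
  rw [h1, e0, Q0_mul_right, en_smul, Matrix.det_transpose, ← Complex.ofReal_mul, mul_left_comm]
  rfl

attribute [local instance] mZ bZ cZ in
/-- the integral over a compact part of a chart is at most the total integral -/
theorem set_le_IM (hd : Dat D M a) {R : ℝ} {Φ : A.ι → G → Cn n → ℂ} (h : Den D M a R Φ)
    (e : ∀ i v, ∀ z ∈ (A.e i).target, 0 ≤ (Φ i v z).re) (j : A.ι) (v : G) {Kc : Set (Cn n)}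
    (hK : IsCompact Kc) (hs : Kc ⊆ (A.e j).target) :
    (∫ z in Kc, Φ j v z).re ≤ (IM D K M Φ).re := by
  set c := D.chart j (v : G ⧸ M) with hc
  have hE : MeasurableSet (c.symm '' Kc) :=
    (hK.image_of_continuousOn (c.continuousOn_symm.mono hs)).measurableSet
  have h1 := setIntegral_chart (R273.Vol_333.volK (R273.RMan4_798.pullKah D (G ⧸ M) K))
    (j, (v : G ⧸ M)) ((h.continuous_gl K).aestronglyMeasurable.indicator hE)
  have h2 : ∫ z in Kc, Φ j v z = ∫ y in c.source ∩ c.symm '' Kc, gl D K M Φ y ∂mu D K M := by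
    rw [← setIntegral_indicator hE]
    conv_lhs => rw [← inter_eq_right.2 hs, ← setIntegral_indicator hK.measurableSet]
    refine Eq.trans (setIntegral_congr_fun (A.e j).open_target.measurableSet fun z hz => ?_) h1.symm
    have hx := (A.e j).map_target hz
    change _ = (K.g j ((A.e j).symm z)).det.re • (c.symm '' Kc).indicator (gl D K M Φ) (c.symm z)
    by_cases hz' : z ∈ Kc
    · rw [indicator_of_mem hz', indicator_of_mem (mem_image_of_mem _ hz')]
      change _ = _ • gl D K M Φ (D.pt j (v : G ⧸ M) ((A.e j).symm z))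
      rw [h.gl_pt K v hx, (A.e j).right_inv hz, Complex.real_smul, ← det_ofReal (K.pos j _ hx),
        mul_div_cancel₀ _ (K.pos j _ hx).det_pos.ne']
    · rw [indicator_of_notMem hz', indicator_of_notMem, smul_zero]
      rintro ⟨y, hy, e1⟩
      exact hz' (c.symm.injOn (hs hy) hz e1 ▸ hy)
  rw [h2, re_IM K hd h]
  refine le_trans (le_of_eq (integral_re (h.integrable K hd).integrableOn).symm)
    (setIntegral_le_integral (h.integrable K hd).re (ae_of_all _ fun y => ?_))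
  change 0 ≤ (gl D K M Φ y).re
  rw [re_gl]
  exact div_nonneg (e _ _ _ ((A.e _).map_source (T223.Hm.ix_mem _)))
    (det_re_pos (K.pos _ _ (T223.Hm.ix_mem _))).le

/-- local energies are bounded by global ones -/
theorem loc_le (hd : Dat D M a) (h : Jt D M r θ) {χ : Cn q → ℝ} (hχ : Continuous χ)
    (hχc : HasCompactSupport χ) (h0 : ∀ x, 0 ≤ χ x) (i : A.ι) (v : G) {Kc : Set (Cn n)}
    (hK : IsCompact Kc) (hs : Kc ⊆ (A.e i).target) (h1 : ∀ z ∈ Kc, 1 ≤ χ (rd D a i v z)) :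
    ∫ z in Kc, e0 (K.g i ((A.e i).symm z)) (Cf (rd D a i v) z) (θ i v z) ≤ E0 D K M a χ θ := by
  obtain ⟨R, d⟩ := dn_e0 K hd h hχ hχc
  have h2 := set_le_IM K hd d (fun i v z hz => by
    rw [Complex.ofReal_re]; exact mul_nonneg (h0 _) (e0_nonneg (gpos K i hz) _ _)) i v hK hs
  rw [integral_complex_ofReal, Complex.ofReal_re] at h2
  refine le_trans (integral_mono_of_nonneg ?_ ?_ ?_) h2
  · exact (ae_restrict_iff' hK.measurableSet).2 (ae_of_all _ fun z hz =>
      e0_nonneg (gpos K i (hs hz)) _ _)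
  · exact ((Complex.continuous_re.comp_continuousOn (d.cont i v)).mono hs).integrableOn_compact hK
  · exact (ae_restrict_iff' hK.measurableSet).2 (ae_of_all _ fun z hz =>
      le_mul_of_one_le_left (e0_nonneg (gpos K i (hs hz)) _ _) (h1 z hz))

theorem exists_ct (hd : Dat D M a) (i : A.ι) (v : G) {Kc : Set (Cn n)} (hK : IsCompact Kc)
    (hs : Kc ⊆ (A.e i).target) : ∃ R : ℝ, ∀ z ∈ Kc, 1 ≤ ct q R (rd D a i v z) :=
  let ⟨R, hR⟩ := hK.exists_bound_of_continuousOn ((hol_rd hd i v).continuousOn.mono hs)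
  ⟨R, fun z hz => one_le_ct (hR z hz)⟩

variable {b : M → H} {f : ℕ → D.cov G → H} {ν : Measure (Cn q)}

theorem near (hd : Dat D M a) (h : Nr D K M a r b f ν) {L : Mt q} (hL : L.det ≠ 0) (R : ℝ)
    {χ : Cn q → ℝ} (hχ : Continuous χ) (hχc : HasCompactSupport χ) (h0 : ∀ x, 0 ≤ χ x) {η : ℝ}
    (hη : 0 < η) : ∃ ε : ℝ, 0 < ε ∧ ε ≤ 1 ∧ ∃ F : ℕ → D.cov G → H,
      (∀ j, Eqv D M r b (F j)) ∧ SqG D K (aL L a) r ε R F ∧ ∀ᶠ j in atTop,
        Ee D K M (aL L a) χ ε (tj D (F j)) - E0 D K M (aL L a) χ (tj D (F j)) ≤ η ∧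
        (∀ w : Cn q → ℝ, Continuous w → (∀ x, |w x| ≤ χ x) →
          |E0 D K M (aL L a) w (tj D (F j)) - ‖L.det‖ ^ 2 * ∫ x, w (mL L x) ∂ν| ≤ η) ∧
        ∀ᶠ k in atTop, E0 D K M (aL L a) χ
          (fun i v z => tj D (F j) i v z - tj D (f k) i v z) ≤ η := by
  have hlim : ∀ w : Cn q → ℝ, Continuous w → HasCompactSupport w →
      Tendsto (fun k => E0 D K M (aL L a) w (tj D (f k))) atTop
        (𝓝 (‖L.det‖ ^ 2 * ∫ x, w (mL L x) ∂ν)) := fun w hw hc => by
    simp only [E0_aL K hd]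
    exact (h.lim _ (hw.comp (mL L).continuous) (hcs_mL hL hc)).const_mul _
  set B := ‖L.det‖ ^ 2 * ∫ x, χ (mL L x) ∂ν with hB
  obtain ⟨s, hs, h1⟩ := Mol.small (abs_nonneg B) (half_pos hη)
  have hs' : 0 < 1 + 1 / s := by positivity
  obtain ⟨η', hη', h2⟩ := Mol.small hs'.le (half_pos hη)
  replace h1 := h1 s le_rfl
  replace h2 := h2 η' le_rfl
  have h3 : η' ≤ η := by
    have : 0 < 1 / s * η' := by positivity
    nlinarith
  obtain ⟨ε, e0, e1, F, hF, hS, h4, h5⟩ := h.apx L hL R χ hχ hχc h0 η' hη'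
  refine ⟨ε, e0, e1, F, hF, hS, ?_⟩
  filter_upwards [h4, h5] with j h4 h5
  refine ⟨h4.trans h3, fun w hw hle => ?_, h5.mono fun k hk => hk.trans h3⟩
  have hwc : HasCompactSupport w := hχc.mono fun x hx h6 => hx (by
    have := hle x
    rw [h6] at this
    exact abs_nonpos_iff.1 this)
  have h7 := le_of_tendsto_of_tendsto ((tendsto_const_nhds.sub (hlim w hw hwc)).abs)
    (((hlim χ hχ hχc).const_mul s).add (tendsto_const_nhds (x := (1 + 1 / s) * η')))
    (h5.mono fun k hk => (E0_near K (dat_aL hd hL) (jt_th (hF j)) (jt_th (h.eqv k)) hw hwc hχ hχc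
      hle hs).trans (add_le_add le_rfl (mul_le_mul_of_nonneg_left hk hs'.le)))
  refine h7.trans ?_
  nlinarith [mul_le_mul_of_nonneg_left (le_abs_self B) hs.le]

/-- the first half of `SumStmt` -/
def M1 (D : MonD A G) (K : Kah A) (M : Subgroup G) (a : D.cov G → Cn q) (r : Rep M H) (b : M → H)
    (ψ : Cn q → ℝ) (R : ℝ) : Prop :=
  ∀ (ε : ℝ) (F : ℕ → D.cov G → H), 0 < ε → ε ≤ 1 → (∀ j, Eqv D M r b (F j)) →
    SqG D K a r ε R F → ∀ (c : Fin q → ℂ) (t κ η : ℝ), ∑ j, ‖c j‖ ^ 2 ≤ 1 → 0 < t → 0 < κ →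
    0 < η → ∀ᶠ j in atTop, ‖Fam69.RG D K M a (Zc c ψ) ε (tj D (F j))‖ ≤
      t / 2 * Ee D K M a ψ ε (tj D (F j)) +
      (1 / (4 * t) + κ) * (Fam69.RG D K M a (hess ψ) ε (tj D (F j))).re +
      (n + 2) / (2 * κ) * (Ee D K M a ψ ε (tj D (F j)) - E0 D K M a ψ (tj D (F j))) + η

/-- the main inequality -/
theorem main_ineq (hd : Dat D M a) (h : Nr D K M a r b f ν) [IsLocallyFiniteMeasure ν] {L : Mt q}
    (hL : L.det ≠ 0) {ψ : Cn q → ℝ} (hψ : ContDiff ℝ ∞ ψ) (hc : HasCompactSupport ψ)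
    (h0 : ∀ x, 0 ≤ ψ x) {R : ℝ} (hM : M1 D K M (aL L a) r b ψ R) (k : Fin q) {t : ℝ}
    (ht : 0 < t) : ‖∫ x, wd (true, k) (cu ψ) (mL L x) ∂ν‖ ≤ t / 2 * ∫ x, ψ (mL L x) ∂ν +
      1 / (4 * t) * ∫ x, (hess ψ (mL L x)).trace.re ∂ν := by
  have hd' := dat_aL hd hL
  set I := ∫ x, wd (true, k) (cu ψ) (mL L x) ∂ν with hI
  obtain ⟨u, hu, hu'⟩ := Complex.exists_norm_eq_mul_self I
  set c : Fin q → ℂ := Pi.single k u with hcu
  have hc1 : ∑ j, ‖c j‖ ^ 2 ≤ 1 := by
    rw [Finset.sum_eq_single k (fun j _ hj => by simp [hcu, hj]) (by simp)]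
    simp [hcu, hu]
  have htr : ∀ x, (Zc c ψ x).trace = u * wd (true, k) (cu ψ) x := fun x => by
    rw [Matrix.trace, Finset.sum_eq_single k (fun j _ hj => by simp [hcu, hj, Zc]) (by simp)]
    simp [hcu, Zc]
  have hint : Integrable (fun x => wd (true, k) (cu ψ) (mL L x)) ν :=
    ((T223.Cov.contDiff_wd (sm_cu hψ) _).continuous.comp
      (mL L).continuous).integrable_of_hasCompactSupport
      (hcs_mL hL (T223.Cov.hcs_wd (hcs_cu hc) _))
  have hI' : ∫ x, (Zc c ψ (mL L x)).trace.re ∂ν = ‖I‖ := by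
    simp only [htr]
    have h1 := integral_re (hint.const_mul u)
    rw [integral_const_mul, ← hI] at h1
    refine h1.trans ?_
    rw [← hu']
    exact Complex.ofReal_re _
  set χ : Cn q → ℝ := fun x => ψ x + nZ (Zc c ψ) x + nZ (hess ψ) x with hχ
  have c1χ : Continuous χ :=
    (hψ.continuous.add (cont_nZ (cont_Zc hψ c))).add (cont_nZ (cont_hess hψ))
  have c2χ : HasCompactSupport χ := (hc.add (hcs_nZ (hcs_Zc hc c))).add (hcs_nZ (hcs_hess hc))
  have n1 := nZ_nonneg (Zc c ψ)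
  have n2 := nZ_nonneg (hess ψ)
  have l0 : ∀ x, ψ x ≤ χ x := fun x => by simp only [hχ]; linarith [n1 x, n2 x]
  have l1 : ∀ x, nZ (Zc c ψ) x ≤ χ x := fun x => by simp only [hχ]; linarith [h0 x, n2 x]
  have l2 : ∀ x, nZ (hess ψ) x ≤ χ x := fun x => by simp only [hχ]; linarith [h0 x, n1 x]
  set d := ‖L.det‖ ^ 2 with hdd
  have hd0 : 0 < d := by have := norm_pos_iff.2 hL; positivity
  set P := ∫ x, ψ (mL L x) ∂ν
  set Q := ∫ x, (hess ψ (mL L x)).trace.re ∂ν
  have hq := c1_nonneg q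
  have key : d * ‖I‖ ≤ t / 2 * (d * P) + 1 / (4 * t) * (d * Q) := by
    refine le_of_eta (d * Q) fun κ hκ => le_of_eta (t + (1 / (4 * t) + κ) * (c1 q + 1) +
      (n + 2) / (2 * κ) + 1 + (c1 q + 1)) fun η hη => ?_
    obtain ⟨ε, e0, e1, F, hF, hS, h1⟩ := near K hd h hL R c1χ c2χ
      (fun x => (h0 x).trans (l0 x)) hη
    obtain ⟨j, ⟨h2, h3, -⟩, h4⟩ := (h1.and (hM ε F e0 e1 hF hS c t κ η hc1 ht hκ hη)).exists
    have a0 := abs_le.1 (h3 ψ hψ.continuous fun x => (abs_of_nonneg (h0 x)).trans_le (l0 x))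
    have a1 := abs_le.1 (h3 _ (cont_tr (cont_Zc hψ c)) fun x => (tr_le_nZ _ x).trans (l1 x))
    have a2 := abs_le.1 (h3 _ (cont_tr (cont_hess hψ)) fun x => (tr_le_nZ _ x).trans (l2 x))
    rw [hI'] at a1
    have b0 := (exc_mono K hd' (jt_th (hF j)) hψ.continuous hc c1χ c2χ l0 e0).trans h2
    have b1 := abs_le.1 ((RG_near K hd' (jt_th (hF j)) (cont_Zc hψ c) (hcs_Zc hc c) c1χ c2χ l1
      e0).trans (mul_le_mul_of_nonneg_left h2 hq))
    have b2 := abs_le.1 ((RG_near K hd' (jt_th (hF j)) (cont_hess hψ) (hcs_hess hc) c1χ c2χ l2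
      e0).trans (mul_le_mul_of_nonneg_left h2 hq))
    have b3 := Complex.re_le_norm (Fam69.RG D K M (aL L a) (Zc c ψ) ε (tj D (F j)))
    have m1 := mul_le_mul_of_nonneg_left
      (show Ee D K M (aL L a) ψ ε (tj D (F j)) ≤ d * P + 2 * η by linarith [a0.2])
      (half_pos ht).le
    have m2 := mul_le_mul_of_nonneg_left
      (show (Fam69.RG D K M (aL L a) (hess ψ) ε (tj D (F j))).re ≤ d * Q + (c1 q + 1) * η by
        linarith [a2.2, b2.2]) (show 0 ≤ 1 / (4 * t) + κ by positivity)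
    have m3 := mul_le_mul_of_nonneg_left b0 (show (0 : ℝ) ≤ (n + 2) / (2 * κ) by positivity)
    nlinarith [a1.1, b1.1]
  have : d * ‖I‖ ≤ d * (t / 2 * P + 1 / (4 * t) * Q) := by linarith
  exact le_of_mul_le_mul_left this hd0

theorem exists_ball {ψ : Cn q → ℝ} (hc : HasCompactSupport ψ) :
    ∃ R : ℝ, tsupport ψ ⊆ Metric.ball 0 R := hc.isCompact.isBounded.subset_ball 0

/-- the weak `∂̄` derivatives tend to zero -/
theorem db_lim (hd : Dat D M a) (h : Nr D K M a r b f ν) {E : ℝ≥0}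
    (hν : ν = E • (volume : Measure (Cn q))) {ψ : Cn q → ℝ} (hψ : ContDiff ℝ ∞ ψ)
    (hc : HasCompactSupport ψ) {R : ℝ} (i : A.ι) (v : G) {χ : Cn n → ℝ} (hχ : ContDiff ℝ ∞ χ)
    (hχc : HasCompactSupport χ) (hs : tsupport χ ⊆ (A.e i).target) {C : ℝ} (hC : 0 ≤ C)
    (hM : ∀ (ε : ℝ) (F : ℕ → D.cov G → H), 0 < ε → ε ≤ 1 → (∀ j, Eqv D M r b (F j)) →
      SqG D K a r ε R F → ∀ η : ℝ, 0 < η → ∀ᶠ j in atTop, ∀ (s : Fin n) (I : FI n),
        ‖∫ z, wd (true, s) (cu χ) z • Sl (rd D a i v) (rd D (F j) i v) z I‖ ^ 2 ≤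
          C * (Fam69.RG D K M a (hess ψ) ε (tj D (F j))).re + η) (s : Fin n) (I : FI n) :
    Tendsto (fun k => ∫ z, wd (true, s) (cu χ) z • Sl (rd D a i v) (rd D (f k) i v) z I) atTop
      (𝓝 0) := by
  refine Fam65.db_of_close K (hol_rd hd i v) (fun k => Fam65.sm_rd (h.eqv k).sm i v)
    (T223.Cov.contDiff_wd (sm_cu hχ) _).continuous hχc hs
    (fun z hz => (wd_off (cu_off hz) _).self_of_nhds) I fun δ hδ => ?_
  obtain ⟨R', hR'⟩ := exists_ct hd i v hχc hs
  have hq := c1_nonneg q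
  obtain ⟨η, hη, h1⟩ := Mol.small (show 0 ≤ C * (c1 q + 1) + 1 by positivity) hδ
  replace h1 := h1 η le_rfl
  set χ' : Cn q → ℝ := fun x => ct q R' x + nZ (hess ψ) x with hχ'
  have c1χ : Continuous χ' := (cont_ct R').add (cont_nZ (cont_hess hψ))
  have c2χ : HasCompactSupport χ' := (hcs_ct R').add (hcs_nZ (hcs_hess hc))
  have l0 : ∀ x, 0 ≤ χ' x := fun x => add_nonneg (ct_nonneg _ _) (nZ_nonneg _ _)
  have l2 : ∀ x, nZ (hess ψ) x ≤ χ' x := fun x => le_add_of_nonneg_left (ct_nonneg _ _)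
  obtain ⟨ε, e0, e1, F, hF, hS, h2⟩ := near K hd h (L := 1) (by simp) R c1χ c2χ l0 hη
  rw [aL_one] at hS h2
  obtain ⟨j, ⟨h3, h4, h5⟩, h6⟩ := (h2.and (hM ε F e0 e1 hF hS η hη)).exists
  have a2 := abs_le.1 (h4 _ (cont_tr (cont_hess hψ)) fun x => (tr_le_nZ _ x).trans (l2 x))
  have a3 : ∫ x, (hess ψ (mL 1 x)).trace.re ∂ν = 0 := by
    simp only [mL, map_one, one_apply_eq_self]
    rw [hν, integral_smul_nnreal_measure, int_hess hψ hc, smul_zero]
  rw [a3] at a2
  have b2 := abs_le.1 ((RG_near K hd (jt_th (hF j)) (cont_hess hψ) (hcs_hess hc) c1χ c2χ l2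
    e0).trans (mul_le_mul_of_nonneg_left h3 hq))
  have m2 := mul_le_mul_of_nonneg_left
    (show (Fam69.RG D K M a (hess ψ) ε (tj D (F j))).re ≤ (c1 q + 1) * η by
      linarith [a2.2, b2.2]) hC
  have h7 : η ≤ δ := by
    have : 0 ≤ C * (c1 q + 1) * η := by positivity
    nlinarith
  refine ⟨rd D (F j) i v, Fam65.sm_rd (hF j).sm i v, by nlinarith [h6 s I],
    h5.mono fun k hk => le_trans ?_ (hk.trans h7)⟩
  exact loc_le K hd ((jt_th (hF j)).sub (jt_th (h.eqv k))) c1χ c2χ l0 i v hχc hs fun z hz =>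
    (hR' z hz).trans (le_add_of_nonneg_right (nZ_nonneg _ _))

omit [T2Space X] [Finite A.ι] [Countable G] K in
/-- **EX** -/
theorem exStmt_of (hS : SumStmt) (hL : LioStmt) (hH : HolStmt) (hN : NrStmt) : ExStmt := by
  intro n q X _ _ _ A _ P K G _ _ D M a hd H _ _ _ α
  obtain ⟨f, ν, hν, h⟩ := hN n q X A P K G D M a hd H α
  obtain ⟨E, hE⟩ := hL q ν fun L hL ψ hψ hc h0 k t ht => by
    obtain ⟨R, hR⟩ := exists_ball hc
    exact main_ineq K hd h hL hψ hc h0
      (hS n q X A P K G D M _ (dat_aL hd hL) H α.toRep α.b ψ R hψ h0 hR).1 k ht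
  obtain ⟨S, h1, h2⟩ := Fam65.isMin_of hH K hd h.eqv (fun i v Kc hs hK η hη => by
    obtain ⟨R, hR⟩ := exists_ct hd i v hK hs
    obtain ⟨N, hN⟩ := h.cau _ (cont_ct R) (hcs_ct R) (ct_nonneg R) η hη
    exact ⟨N, fun k hk l hl => (loc_le K hd ((jt_th (h.eqv k)).sub (jt_th (h.eqv l))) (cont_ct R)
      (hcs_ct R) (ct_nonneg R) i v hK hs hR).trans (hN k hk l hl)⟩) (fun i v z₀ hz => by
    let ψ : ContDiffBump (rd D a i v z₀) := ⟨1, 2, one_pos, one_lt_two⟩
    obtain ⟨R, hR⟩ := exists_ball ψ.hasCompactSupport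
    obtain ⟨V, hV, h3⟩ := (hS n q X A P K G D M a hd H α.toRep α.b ψ R ψ.contDiff ψ.nonneg'
      hR).2 i v z₀ hz (ψ.pos_of_mem_ball (Metric.mem_ball_self ψ.rOut_pos))
    refine ⟨V ∩ (A.e i).target, inter_mem hV ((A.e i).open_target.mem_nhds hz),
      fun χ c1 c2 c3 s I => ?_⟩
    obtain ⟨C, hC, h4⟩ := h3 χ c1 (c3.trans inter_subset_left)
    exact db_lim K hd h hE ψ.contDiff ψ.hasCompactSupport i v c1 c2 (c3.trans inter_subset_right)
      hC h4 s I) h.el0
  refine ⟨f, S, E, E.2, h.eqv, h1, h2, fun ψ hψ hc => ?_⟩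
  have h3 := h.lim ψ hψ hc
  rwa [hE, integral_smul_nnreal_measure] at h3

end

end Crest.Agent.X261.Fam13
end

-- ▼ part X261/Fam11/Flat
section

/-!
# Row 261, package FAM (helper11), part Flat: chain rules and continuity

* `wd_cmp`, `hess_cmp`, `d1_cmp` : chain rules for a holomorphic map `ℂ^n → ℂ^q`;
* `hess_sum`, `d1_sum` : additivity;
* `cOn_*` : continuity of the tensors.
-/

set_option autoImplicit false
set_option linter.unusedSectionVars false

open Set Filter Topology MeasureTheory Matrix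
open scoped ComplexConjugate ComplexOrder InnerProductSpace ContDiff NNReal

namespace Crest.Agent.X261.Fam11

open Crest.Agent.R275.Geo Crest.Agent.R275.EDR890 Crest.Agent.R273.Hess_333
open Crest.Agent.R273.HessB_333 Crest.Agent.R273.Fock_243
open Crest.Agent.X261.Fam

noncomputable section

variable {n q : ℕ} {H : Type*} [NormedAddCommGroup H] [InnerProductSpace ℂ H]

theorem dif {E W : Type*} [NormedAddCommGroup E] [NormedSpace ℝ E] [NormedAddCommGroup W]
    [NormedSpace ℝ W] {f : E → W} {z : E} (hf : ContDiffAt ℝ ∞ f z) : DifferentiableAt ℝ f z :=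
  hf.differentiableAt (by simp)

theorem co_hol {a : Cn n → Cn q} {z : Cn n} (ha : DifferentiableAt ℂ a z) (h : Fin q) :
    DifferentiableAt ℂ (fun w => a w h) z :=
  (EuclideanSpace.proj h : Cn q →L[ℂ] ℂ).differentiableAt.comp z ha

theorem Cf_fd {a : Cn n → Cn q} {z : Cn n} (ha : DifferentiableAt ℂ a z) (b : Fin n) (h : Fin q) :
    Cf a z b h = fderiv ℂ a z (EuclideanSpace.single b 1) h := by
  have h1 : fderiv ℂ (fun w => a w h) z =
      (EuclideanSpace.proj h : Cn q →L[ℂ] ℂ).comp (fderiv ℂ a z) :=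
    ((EuclideanSpace.proj h : Cn q →L[ℂ] ℂ).hasFDerivAt.comp z ha.hasFDerivAt).fderiv
  rw [Cf, Matrix.of_apply, wd_hol' (co_hol ha h), h1]
  rfl

/-- chain rule -/
theorem wd_cmp {W : Type*} [NormedAddCommGroup W] [NormedSpace ℂ W] {f : Cn q → W}
    {a : Cn n → Cn q} {z : Cn n} (hf : DifferentiableAt ℝ f (a z)) (ha : DifferentiableAt ℂ a z)
    (s : Bool) (b : Fin n) :
    wd (s, b) (fun w => f (a w)) z = ∑ l, cj s (Cf a z b l) • wd (s, l) f (a z) := by
  have h' : fderiv ℝ (fun w => f (a w)) z =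
      (fderiv ℝ f (a z)).comp ((fderiv ℂ a z).restrictScalars ℝ) :=
    (hf.hasFDerivAt.comp z (ha.hasFDerivAt.restrictScalars ℝ)).fderiv
  have hI : (EuclideanSpace.single b Complex.I : Cn n) =
      Complex.I • EuclideanSpace.single b (1 : ℂ) := by
    ext c
    simp [PiLp.single_apply]
  simp only [Cf_fd ha]
  rw [wd, h', wdL]
  simp only [ContinuousLinearMap.comp_apply, ContinuousLinearMap.coe_restrictScalars']
  rw [hI, map_smul]
  exact wdL_vec s _ _

theorem hol_sm {W : Type*} [NormedAddCommGroup W] [NormedSpace ℂ W] [CompleteSpace W]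
    {U : Set (Cn n)} (hU : IsOpen U) {f : Cn n → W} (hf : DifferentiableOn ℂ f U) :
    ContDiffOn ℝ ∞ f U :=
  ((R266.SCV.analyticOnNhd_of_differentiableOn hU hf).contDiffOn_of_completeSpace).restrict_scalars ℝ

theorem wd_zero {W : Type*} [NormedAddCommGroup W] [NormedSpace ℂ W] {f : Cn n → W} {z : Cn n}
    (h : ∀ᶠ w in 𝓝 z, f w = 0) (s : WI n) : wd s f z = 0 := by
  rw [wd_congr (g := fun _ => 0) h, wd_const]

variable {U : Set (Cn n)} {a : Cn n → Cn q} {z : Cn n}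

theorem co_sm (hU : IsOpen U) (ha : DifferentiableOn ℂ a U) (hz : z ∈ U) (h : Fin q) :
    ContDiffAt ℝ ∞ (fun w => a w h) z :=
  (hol_sm hU ((EuclideanSpace.proj h : Cn q →L[ℂ] ℂ).differentiable.comp_differentiableOn
    ha)).contDiffAt (hU.mem_nhds hz)

theorem Cf_db (hU : IsOpen U) (ha : DifferentiableOn ℂ a U) (hz : z ∈ U) (b c : Fin n)
    (h : Fin q) : wd (true, c) (fun w => Cf a w b h) z = 0 := by
  refine (wd_comm (co_sm hU ha hz h) (true, c) (false, b)).trans (wd_zero ?_ _)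
  filter_upwards [hU.mem_nhds hz] with w hw
  exact wd_hol (co_hol (ha.differentiableAt (hU.mem_nhds hw)) h) c

/-- the Hessian of a composition with a holomorphic map -/
theorem hess_cmp (hU : IsOpen U) (ha : DifferentiableOn ℂ a U) (hz : z ∈ U) {ψ : Cn q → ℝ}
    (hψ : ContDiffAt ℝ ∞ ψ (a z)) :
    hess (fun w => ψ (a w)) z = Cf a z * hess ψ (a z) * (Cf a z)ᴴ := by
  ext c b
  have haz : DifferentiableAt ℂ a z := ha.differentiableAt (hU.mem_nhds hz)
  have hud : ∀ᶠ w in 𝓝 z, DifferentiableAt ℝ (cu ψ) (a w) := by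
    have h1 : ∀ᶠ y in 𝓝 (a z), DifferentiableAt ℝ (cu ψ) y := by
      have := ((contDiffAt_cu hψ).of_le (m := 1) (by exact_mod_cast le_top)).eventually (by simp)
      filter_upwards [this] with y hy
      exact hy.differentiableAt (by simp)
    exact haz.continuousAt.eventually h1
  have h1 : wd (true, b) (cu fun w => ψ (a w)) =ᶠ[𝓝 z] fun w => ∑ l,
      conj (Cf a w b l) * wd (true, l) (cu ψ) (a w) := by
    filter_upwards [hU.mem_nhds hz, hud] with w hw hw'
    exact wd_cmp (f := cu ψ) hw' (ha.differentiableAt (hU.mem_nhds hw)) true b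
  have hJ : ∀ l, DifferentiableAt ℝ (fun w => Cf a w b l) z := fun l =>
    dif (contDiffAt_wd (co_sm hU ha hz l) _)
  have hJb : ∀ l, wd (false, c) (fun w => conj (Cf a w b l)) z = 0 := fun l => by
    have h8 := conj_wd (true, c) (hJ l)
    rw [Cf_db hU ha hz, map_zero] at h8
    exact h8.symm
  have hw2 : ∀ l, DifferentiableAt ℝ (wd (true, l) (cu ψ)) (a z) := fun l =>
    dif (contDiffAt_wd (contDiffAt_cu hψ) _)
  have hd1 : ∀ l, DifferentiableAt ℝ (fun w => conj (Cf a w b l)) z := fun l =>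
    (Complex.conjCLE : ℂ →L[ℝ] ℂ).differentiableAt.comp z (hJ l)
  have hd2 : ∀ l, DifferentiableAt ℝ (fun w => wd (true, l) (cu ψ) (a w)) z := fun l =>
    (hw2 l).comp z (haz.restrictScalars ℝ)
  rw [hess_apply, wd_congr h1, wd_sum Finset.univ (f := fun l w =>
      conj (Cf a w b l) * wd (true, l) (cu ψ) (a w)) (fun l _ => (hd1 l).mul (hd2 l)),
    Matrix.mul_apply]
  refine Finset.sum_congr rfl fun l _ => ?_
  rw [wd_mul (hd1 l) (hd2 l), hJb l, zero_mul, zero_add, wd_cmp (hw2 l) haz false c,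
    Matrix.mul_apply, mul_comm]
  rfl

theorem dif_cu {u : Cn n → ℝ} (hu : DifferentiableAt ℝ u z) : DifferentiableAt ℝ (cu u) z :=
  Complex.ofRealCLM.differentiableAt.comp z hu

/-- `c ⊗ ∂̄ ψ` pulled back by a holomorphic map -/
theorem d1_cmp (ha : DifferentiableAt ℂ a z) {ψ : Cn q → ℝ} (hψ : DifferentiableAt ℝ ψ (a z))
    (c : Fin q → ℂ) :
    d1 (Cf a z *ᵥ c) (fun w => ψ (a w)) z = Cf a z * d1 c ψ (a z) * (Cf a z)ᴴ := by
  ext d b
  have h1 : wd (true, b) (cu fun w => ψ (a w)) z =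
      ∑ l, conj (Cf a z b l) * wd (true, l) (cu ψ) (a z) :=
    wd_cmp (f := cu ψ) (dif_cu hψ) ha true b
  simp only [d1, Matrix.of_apply, h1, Matrix.mul_apply, Matrix.mulVec, dotProduct,
    Matrix.conjTranspose_apply, RCLike.star_def, Finset.mul_sum, Finset.sum_mul]
  rw [Finset.sum_comm]
  exact Finset.sum_congr rfl fun l _ => Finset.sum_congr rfl fun k _ => by ring

theorem d1_congr (y : Fin n → ℂ) {u v : Cn n → ℝ} (h : u =ᶠ[𝓝 z] v) : d1 y u z = d1 y v z := by
  ext d b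
  have h1 : cu u =ᶠ[𝓝 z] cu v := h.mono fun w hw => by simp only [cu, hw]
  simp only [d1, Matrix.of_apply, wd_congr h1]

theorem d1_zero (y : Fin n → ℂ) {u : Cn n → ℝ} (h : ∀ᶠ w in 𝓝 z, u w = 0) : d1 y u z = 0 := by
  ext d b
  have h1 : ∀ᶠ w in 𝓝 z, cu u w = 0 := h.mono fun w hw => by simp only [cu, hw, Complex.ofReal_zero]
  simp only [d1, Matrix.of_apply, wd_zero h1, mul_zero, Matrix.zero_apply]

theorem hess_zero {u : Cn n → ℝ} (h : ∀ᶠ w in 𝓝 z, u w = 0) : hess u z = 0 := by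
  ext d b
  have h1 : ∀ᶠ w in 𝓝 z, wd (true, b) (cu u) w = 0 := h.eventually_nhds.mono fun w hw =>
    wd_zero (hw.mono fun y hy => by simp only [cu, hy, Complex.ofReal_zero]) _
  rw [hess_apply, wd_zero h1, Matrix.zero_apply]

theorem d1_sum {κ : Type*} (s : Finset κ) (y : Fin n → ℂ) {u : κ → Cn n → ℝ}
    (h : ∀ k ∈ s, DifferentiableAt ℝ (u k) z) :
    d1 y (fun w => ∑ k ∈ s, u k w) z = ∑ k ∈ s, d1 y (u k) z := by
  ext d b
  have h1 : cu (fun w => ∑ k ∈ s, u k w) = fun w => ∑ k ∈ s, cu (u k) w := by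
    funext w; simp only [cu, Complex.ofReal_sum]
  simp only [d1, Matrix.of_apply, h1, wd_sum s fun k hk => dif_cu (h k hk), Finset.mul_sum,
    Matrix.sum_apply]

theorem hess_sum {κ : Type*} (s : Finset κ) {u : κ → Cn n → ℝ}
    (h : ∀ k ∈ s, ContDiffAt ℝ ∞ (u k) z) :
    hess (fun w => ∑ k ∈ s, u k w) z = ∑ k ∈ s, hess (u k) z := by
  classical
  induction s using Finset.induction_on with
  | empty => simpa using hess_zero (u := fun _ => 0) (Eventually.of_forall fun _ => rfl)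
  | insert k s hk ih =>
    simp only [Finset.sum_insert hk]
    rw [hess_add (h k (Finset.mem_insert_self _ _))
      (ContDiffAt.sum fun l hl => h l (Finset.mem_insert_of_mem hl)),
      ih fun l hl => h l (Finset.mem_insert_of_mem hl)]

/-! ### continuity -/

section cont

variable {Y : Type*} [TopologicalSpace Y] {V : Set Y}

theorem cOn_mul {ι κ σ : Type} [Fintype κ] {m : Y → Matrix ι κ ℂ} {m' : Y → Matrix κ σ ℂ}
    (h : ContinuousOn m V) (h' : ContinuousOn m' V) : ContinuousOn (fun y => m y * m' y) V :=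
  (continuous_fst.matrix_mul continuous_snd).comp_continuousOn (h.prodMk h')

theorem cOn_ct {ι κ : Type} {m : Y → Matrix ι κ ℂ} (h : ContinuousOn m V) :
    ContinuousOn (fun y => (m y)ᴴ) V :=
  continuous_id.matrix_conjTranspose.comp_continuousOn h

theorem cOn_det {m : Y → Mt n} (h : ContinuousOn m V) : ContinuousOn (fun y => (m y).det) V :=
  continuous_id.matrix_det.comp_continuousOn h

theorem cOn_adj {m : Y → Mt n} (h : ContinuousOn m V) : ContinuousOn (fun y => (m y).adjugate) V :=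
  continuous_id.matrix_adjugate.comp_continuousOn h

theorem cOn_inv {m : Y → Mt n} (h : ContinuousOn m V) (h0 : ∀ y ∈ V, (m y).det ≠ 0) :
    ContinuousOn (fun y => (m y)⁻¹) V := by
  have h1 : ContinuousOn (fun y => ((m y).det)⁻¹ • (m y).adjugate) V :=
    ((cOn_det h).inv₀ h0).smul (cOn_adj h)
  refine h1.congr fun z _ => ?_
  simp only [Matrix.inv_def, Ring.inverse_eq_inv']

theorem cOn_gE {g : Y → Mt n} {C : Y → Mr n q} (hg : ContinuousOn g V) (hC : ContinuousOn C V)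
    (ε : ℝ) : ContinuousOn (fun y => gE (g y) (C y) ε) V :=
  hg.add ((cOn_mul hC (cOn_ct hC)).const_smul ((ε⁻¹ : ℝ) : ℂ))


theorem cOn_Wm {g X : Y → Mt n} (hg : ContinuousOn g V) (h0 : ∀ y ∈ V, (g y).det ≠ 0)
    (hX : ContinuousOn X V) : ContinuousOn (fun y => Wm (g y) (X y)) V := by
  have h1 := cOn_inv hg h0
  have h2 := cOn_mul h1 hX
  exact (cOn_det hg).smul (((continuous_id.matrix_trace.comp_continuousOn h2).smul h1).sub
    (cOn_mul h2 h1))

theorem cOn_ip {ι : Type} [Fintype ι] {Q : Y → Matrix ι ι ℂ} {θ θ' : Y → ι → H}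
    (hQ : ContinuousOn Q V) (h : ∀ b, ContinuousOn (fun y => θ y b) V)
    (h' : ∀ b, ContinuousOn (fun y => θ' y b) V) :
    ContinuousOn (fun y => ip (Q y) (θ y) (θ' y)) V := by
  simp only [ip_eq]
  exact continuousOn_finsetSum _ fun r _ => continuousOn_finsetSum _ fun p _ =>
    (continuousOn_pi.1 (continuousOn_pi.1 hQ r) p).mul (ContinuousOn.inner (𝕜 := ℂ) (h r) (h' p))

end cont

theorem cOn_hess (hU : IsOpen U) {u : Cn n → ℝ} (hu : ContDiffOn ℝ ∞ u U) :
    ContinuousOn (hess u) U :=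
  continuousOn_pi.2 fun b => continuousOn_pi.2 fun c => (contDiffOn_hess hU hu b c).continuousOn

theorem cOn_d1 (hU : IsOpen U) {u : Cn n → ℝ} (hu : ContDiffOn ℝ ∞ u U) {y : Cn n → Fin n → ℂ}
    (hy : ContinuousOn y U) : ContinuousOn (fun z => d1 (y z) u z) U :=
  continuousOn_pi.2 fun b => continuousOn_pi.2 fun c => (continuousOn_pi.1 hy b).mul
    (contDiffOn_wd hU (Complex.ofRealCLM.contDiff.comp_contDiffOn hu) (true, c)).continuousOn

theorem ip_zero {ι : Type} [Fintype ι] (θ θ' : ι → H) : ip (0 : Matrix ι ι ℂ) θ θ' = 0 := by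
  simp [ip_eq]

end

end Crest.Agent.X261.Fam11
end

-- ▼ part X261/Fam11/Sum

/-!
# Row 261, package FAM (helper11), part Sum: the local inequalities summed over the charts

* `PU`, `exists_pu`, `exists_pu'` : nonnegative partitions of unity;
* `Wt`, `Xn`, `den_W`, `den_U` : weights, `(1,1)`-tensors and their densities;
* `Op`, `IM_op` : the global integral of a local operator applied to `ψ ∘ a`;
* `sum_of : FsStmt → SumStmt`.
-/

set_option autoImplicit false
set_option linter.unusedSectionVars false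

open Set Filter Topology MeasureTheory Matrix
open scoped ComplexConjugate ComplexOrder InnerProductSpace ContDiff

namespace Crest.Agent.X261.Fam11

open Crest.Agent.R275.Geo Crest.Agent.R275.Core144 Crest.Agent.R273.UCov_914
open Crest.Agent.R275.EDR890 Crest.Agent.R273.Hess_333 Crest.Agent.R273.HessB_333
open Crest.Agent.R273.Kah_333 Crest.Agent.R273.Fock_243
open Crest.Agent.X261.Fam
open Crest.Agent.X261.Fam69 (gk kf_gk rd_ev tr_dif hol_rd rd_inv rd_law Cf_law g_law Jm_det_ne Jt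
  sm_rd tj jt_th Tn Ca tn_Qe tn_Q0 SqG E0 Ee RG Zc SumStmt)
open Crest.Agent.X261.Rel.Act (Rep Act)

noncomputable section

variable {n q : ℕ} {H : Type*} [NormedAddCommGroup H] [InnerProductSpace ℂ H]
variable {X : Type} [TopologicalSpace X] {A : Atl n X} {G : Type} [Group G]

/-! ### partitions of unity -/

/-- a nonnegative partition of unity -/
structure PU (A : Atl n X) [Fintype A.ι] (ρ : A.ι → X → ℝ) : Prop where
  sm : ∀ j, A.Sm (ρ j)
  nn : ∀ j x, 0 ≤ ρ j x
  sub : ∀ j, tsupport (ρ j) ⊆ (A.e j).source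
  one : ∀ x, ∑ j, ρ j x = 1

theorem exists_pu [T2Space X] [CompactSpace X] (A : Atl n X) [Fintype A.ι] : ∃ ρ, PU A ρ := by
  obtain ⟨t, φ, h1, h2, -, h4, h5, -, h7⟩ := R275.QN2b734.exists_partition A isCompact_univ
    (fun i => (A.e i).source) (fun i => (A.e i).open_source) fun x _ => A.cover x
  refine ⟨φ, fun j => R275.QN2b734.sm_iff.2 (h1 j), fun j x => (h2 j x).1, h4, fun x => ?_⟩
  rw [← h7.self_of_nhdsSet x (mem_univ x)]
  exact (Finset.sum_subset (Finset.subset_univ t) fun j _ hj => by rw [h5 j hj]; rfl).symm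

theorem exists_pu' [T2Space X] [CompactSpace X] (A : Atl n X) [Fintype A.ι] {i : A.ι} {x₀ : X}
    (hx : x₀ ∈ (A.e i).source) : ∃ ρ, PU A ρ ∧ 0 < ρ i x₀ := by
  classical
  obtain ⟨ρ, hρ⟩ := exists_pu A
  obtain ⟨β, h1, h2, h3, -, h5⟩ :=
    R275.QN2b734.exists_bump_point A ((A.e i).open_source.mem_nhds hx)
  have hβ : A.Sm β := R275.QN2b734.sm_iff.2 h1
  refine ⟨fun j x => (1 - β x) * ρ j x + if j = i then β x else 0,
    ⟨fun j k => ?_, fun j x => ?_, fun j => ?_, fun x => ?_⟩, ?_⟩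
  · refine ((contDiffOn_const.sub (hβ k)).mul (hρ.sm j k)).add ?_
    split_ifs
    · exact hβ k
    · exact contDiffOn_const
  · refine add_nonneg (mul_nonneg (sub_nonneg.2 (h2 x).2) (hρ.nn j x)) ?_
    split_ifs
    · exact (h2 x).1
    · exact le_rfl
  · intro x hx'
    by_contra hj
    have e1 : ∀ᶠ y in 𝓝 x, ρ j y = 0 :=
      notMem_tsupport_iff_eventuallyEq.1 fun h => hj (hρ.sub j h)
    have e2 : ∀ᶠ y in 𝓝 x, (if j = i then β y else 0) = 0 := by
      split_ifs with hji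
      · exact notMem_tsupport_iff_eventuallyEq.1 fun h => hj (hji ▸ h5 h)
      · exact Eventually.of_forall fun _ => rfl
    refine notMem_tsupport_iff_eventuallyEq.2 ?_ hx'
    filter_upwards [e1, e2] with y e1 e2
    simp only [e1, e2, mul_zero, add_zero, Pi.zero_apply]
  · rw [Finset.sum_add_distrib, ← Finset.mul_sum, hρ.one, Finset.sum_ite_eq' Finset.univ i,
      if_pos (Finset.mem_univ _)]
    ring
  · simp only [h3.self_of_nhds, sub_self, zero_mul, if_true, zero_add, zero_lt_one]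

/-! ### weights and tensors -/

variable {D : MonD A G} {M : Subgroup G} {a : D.cov G → Cn q} {R : ℝ}

/-- smooth invariant weights -/
structure Wt (D : MonD A G) (M : Subgroup G) (a : D.cov G → Cn q) (R : ℝ) (U : D.cov G → ℝ) :
    Prop where
  sm : (D.atl G).Sm U
  inv : ∀ m ∈ M, ∀ e, U (m • e) = U e
  supp : ∀ e, R < ‖a e‖ → U e = 0

variable {U : D.cov G → ℝ}

theorem Wt.rinv (h : Wt D M a R U) {m : G} (hm : m ∈ M) (i : A.ι) (v : G) :
    rd D U i (v * m⁻¹) = rd D U i v := by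
  rw [rd_deck]
  funext z
  exact h.inv m hm _

theorem Wt.ev (h : Wt D M a R U) (hd : Dat D M a) {i : A.ι} {v : G} {z : Cn n}
    (hz : z ∈ (A.e i).target) (h1 : R < ‖rd D a i v z‖) : ∀ᶠ w in 𝓝 z, rd D U i v w = 0 := by
  have h2 : ContinuousAt (fun w => ‖rd D a i v w‖) z :=
    ((hol_rd hd i v).continuousOn.continuousAt ((A.e i).open_target.mem_nhds hz)).norm
  filter_upwards [h2.eventually (lt_mem_nhds h1)] with w hw
  exact h.supp _ hw

theorem Wt.smOn (h : Wt D M a R U) (i : A.ι) (v : G) :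
    ContDiffOn ℝ ∞ (rd D U i v) (A.e i).target := h.sm (i, v)

/-- invariant `(1,1)`-tensors -/
structure Xn (D : MonD A G) (M : Subgroup G) (a : D.cov G → Cn q) (R : ℝ)
    (Z : A.ι → G → Cn n → Mt n) : Prop where
  law : ∀ i j v, ∀ x ∈ (A.e i).source ∩ (A.e j).source,
    Z i v (A.e i x) = (Jm A i j x)ᵀ * Z j (D.c i j x * v) (A.e j x) * ((Jm A i j x)ᵀ)ᴴ
  inv : ∀ m ∈ M, ∀ i v, ∀ z ∈ (A.e i).target, Z i (v * m⁻¹) z = Z i v z
  cont : ∀ i v, ContinuousOn (Z i v) (A.e i).target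
  supp : ∀ i v, ∀ z ∈ (A.e i).target, R < ‖rd D a i v z‖ → Z i v z = 0

theorem xn_hess (hd : Dat D M a) (h : Wt D M a R U) :
    Xn D M a R fun i v z => hess (rd D U i v) z where
  law i j v x hx := by
    have h2 := sm_rd h.sm j (D.c i j x * v) ((A.e j).map_source hx.2)
    rw [hess_congr (rd_ev U v hx), hess_cmp (isOpen_ov i j) (A.holo i j) (mem_ov hx)
      (by rw [(A.e i).left_inv hx.1]; exact h2), Fam69.Cf_tr hx, (A.e i).left_inv hx.1]
  inv m hm i v z _ := by rw [h.rinv hm]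
  cont i v := cOn_hess (A.e i).open_target (h.smOn i v)
  supp i v z hz h1 := hess_zero (h.ev hd hz h1)

theorem cOn_Ca (hd : Dat D M a) (i : A.ι) (v : G) : ContinuousOn (Ca D a i v) (A.e i).target :=
  Fam69.cont_of_SM fun _ hz => Fam69.sm_Ca hd i v hz

theorem xn_d1 (hd : Dat D M a) (h : Wt D M a R U) (c : Fin q → ℂ) :
    Xn D M a R fun i v z => d1 (Ca D a i v z *ᵥ c) (rd D U i v) z where
  law i j v x hx := by
    have h2 := dif (sm_rd h.sm j (D.c i j x * v) ((A.e j).map_source hx.2))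
    have h3 := d1_cmp (ψ := rd D U j (D.c i j x * v)) (tr_dif hx)
      (by rw [(A.e i).left_inv hx.1]; exact h2) (Ca D a j (D.c i j x * v) (A.e j x) *ᵥ c)
    rw [Fam69.Cf_tr hx, (A.e i).left_inv hx.1] at h3
    rw [d1_congr _ (rd_ev U v hx), Ca, Cf_law hd v hx, ← Matrix.mulVec_mulVec, h3]
  inv m hm i v z _ := by rw [h.rinv hm, Ca, rd_inv hd hm]
  cont i v := cOn_d1 (A.e i).open_target (h.smOn i v)
    ((continuous_id.matrix_mulVec continuous_const).comp_continuousOn (cOn_Ca hd i v))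
  supp i v z hz h1 := d1_zero _ (h.ev hd hz h1)

variable {r : Rep M H} {θ : A.ι → G → Cn n → Fin n → H}

theorem den_W (K : Kah A) (hd : Dat D M a) {ε : ℝ} (hε : 0 < ε) {Z : A.ι → G → Cn n → Mt n}
    (hZ : Xn D M a R Z) (h : Jt D M r θ) : Den D M a R fun i v z =>
      ip (Wm (gE (gk K i z) (Ca D a i v z) ε) (Z i v z)) (θ i v z) (θ i v z) where
  law i j v x hx := by
    rw [h.law i j v x hx, ← ip_conj, g_law K hx, Ca, Cf_law hd v hx, gE_conj, hZ.law i j v x hx,
      Wm_conj (Jm_det_ne K hx), ip_smul, Matrix.det_transpose]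
  inv m hm i v z hz := by
    rw [h.inv ⟨m, hm⟩ i v z hz, hZ.inv m hm i v z hz, Ca, rd_inv hd hm]
    exact ip_iso (r.π ⟨m, hm⟩).toLinearIsometry _ _ _
  cont i v := cOn_ip (cOn_Wm (cOn_gE (Fam69.cont_of_SM fun _ hz => Fs.kf_sm (kf_gk K i) hz)
    (cOn_Ca hd i v) ε) (fun z hz => (gE_posDef ((kf_gk K i).pos z hz) _ hε).det_pos.ne')
    (hZ.cont i v)) (h.cont i v) (h.cont i v)
  supp i v z hz h1 := by rw [hZ.supp i v z hz h1, Wm_zero, ip_zero]

theorem den_U {Y : A.ι → G → Cn n → Mt n} (hU : Wt D M a R U) (hY : Tn D M Y) (h : Jt D M r θ) :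
    Den D M a R fun i v z => ((rd D U i v z * en (Y i v z) (θ i v z) : ℝ) : ℂ) := by
  have h1 : Den D M a R fun i v z => ((rd D U i v z : ℝ) : ℂ) * ip (Y i v z) (θ i v z) (θ i v z) :=
    { law := fun i j v x hx => by
        rw [h.law i j v x hx, ← ip_conj, hY.law i j v x hx, ip_smul, rd_law U v hx,
          Matrix.det_transpose, mul_left_comm]
      inv := fun m hm i v z hz => by
        rw [h.inv ⟨m, hm⟩ i v z hz, hY.inv m hm i v z hz, hU.rinv hm]
        exact congrArg _ (ip_iso (r.π ⟨m, hm⟩).toLinearIsometry _ _ _)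
      cont := fun i v => (Complex.continuous_ofReal.comp_continuousOn
        (hU.smOn i v).continuousOn).mul (Fam69.cont_ip (hY.cont i v) (h.cont i v) (h.cont i v))
      supp := fun i v z _ h1 => by
        rw [show rd D U i v z = 0 from hU.supp _ h1, Complex.ofReal_zero, zero_mul] }
  simpa only [Complex.re_ofReal_mul, en] using Fam69.Den.re h1

/-! ### the pieces of `ψ ∘ a` -/

/-- the weight cut by a function on the base -/
def Uj (D : MonD A G) (a : D.cov G → Cn q) (ρ : X → ℝ) (ψ : Cn q → ℝ) (e : D.cov G) : ℝ :=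
  ρ (D.pr e) * ψ (a e)

/-- extension by zero of the reading in a chart -/
def ph (D : MonD A G) (U : D.cov G → ℝ) (j : A.ι) (v : G) : Cn n → ℝ :=
  (A.e j).target.indicator (rd D U j v)

theorem rd_Uj (ρ : X → ℝ) (ψ : Cn q → ℝ) (i : A.ι) (v : G) :
    rd D (Uj D a ρ ψ) i v = fun z => ρ ((A.e i).symm z) * ψ (rd D a i v z) := rfl

theorem ph_ev (U : D.cov G → ℝ) {j : A.ι} (v : G) {z : Cn n} (hz : z ∈ (A.e j).target) :
    ph D U j v =ᶠ[𝓝 z] rd D U j v := by
  filter_upwards [(A.e j).open_target.mem_nhds hz] with w hw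
  exact indicator_of_mem hw _

variable {ρ : X → ℝ} {ψ : Cn q → ℝ}

theorem psi_off (hs : tsupport ψ ⊆ Metric.ball 0 R) {y : Cn q} (hy : R < ‖y‖) : ψ y = 0 :=
  image_eq_zero_of_notMem_tsupport fun h => by
    have := hs h
    rw [mem_ball_zero_iff] at this
    exact lt_asymm hy this

theorem wt_Uj (hd : Dat D M a) (hρ : A.Sm ρ) (hψ : ContDiff ℝ ∞ ψ)
    (hs : tsupport ψ ⊆ Metric.ball 0 R) : Wt D M a R (Uj D a ρ ψ) where
  sm p := (hρ p.1).mul (hψ.comp_contDiffOn (hol_sm (A.e p.1).open_target (hol_rd hd p.1 p.2)))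
  inv m hm e := by rw [Uj, Uj, hd.inv m hm, D.pr_deck]
  supp e he := by rw [Uj, psi_off hs he, mul_zero]

/-- the support of a piece -/
theorem exists_K [T2Space X] [CompactSpace X] (hd : Dat D M a) {j : A.ι}
    (hρ : tsupport ρ ⊆ (A.e j).source) (hs : tsupport ψ ⊆ Metric.ball 0 R) (v : G) :
    ∃ K₀ K' : Set (Cn n), IsCompact K₀ ∧ IsCompact K' ∧ K₀ ⊆ interior K' ∧ K' ⊆ (A.e j).target ∧
      (∀ z ∈ K', ‖rd D a j v z‖ ≤ R) ∧ ∀ z ∉ K₀, ph D (Uj D a ρ ψ) j v z = 0 := by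
  have h1 : IsCompact (A.e j '' tsupport ρ) :=
    (isClosed_tsupport _).isCompact.image_of_continuousOn ((A.e j).continuousOn.mono hρ)
  have h2 : A.e j '' tsupport ρ ⊆ (A.e j).target := by
    rintro _ ⟨x, hx, rfl⟩
    exact (A.e j).map_source (hρ hx)
  have h3 := (hol_rd hd j v).continuousOn
  have h4 : IsCompact (A.e j '' tsupport ρ ∩ rd D a j v ⁻¹' tsupport ψ) :=
    h1.of_isClosed_subset ((h3.mono h2).preimage_isClosed_of_isClosed h1.isClosed
      (isClosed_tsupport _)) inter_subset_left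
  obtain ⟨K', h5, h6, h7⟩ := exists_compact_between h4
    (h3.isOpen_inter_preimage (A.e j).open_target (Metric.isOpen_ball (x := 0) (ε := R)))
    (inter_subset_inter h2 (preimage_mono hs))
  refine ⟨_, K', h4, h5, h6, fun z hz => (h7 hz).1,
    fun z hz => (mem_ball_zero_iff.1 (h7 hz).2).le, fun z hz => ?_⟩
  by_cases ht : z ∈ (A.e j).target
  · rw [ph, indicator_of_mem ht, rd_Uj]
    by_contra h0
    exact hz ⟨⟨_, subset_tsupport _ (left_ne_zero_of_mul h0), (A.e j).right_inv ht⟩,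
      subset_tsupport _ (right_ne_zero_of_mul h0)⟩
  · exact indicator_of_notMem ht _

/-! ### local operators -/

/-- a local additive operator from weights to densities -/
structure Op (D : MonD A G) (M : Subgroup G) (a : D.cov G → Cn q) (R : ℝ)
    (P : A.ι → G → (Cn n → ℝ) → Cn n → ℂ) : Prop where
  congr : ∀ i v (u u' : Cn n → ℝ) z, u =ᶠ[𝓝 z] u' → P i v u z = P i v u' z
  sum : ∀ i v (s : Finset A.ι) (u : A.ι → Cn n → ℝ) z, (∀ j ∈ s, ContDiffAt ℝ ∞ (u j) z) →
    P i v (fun w => ∑ j ∈ s, u j w) z = ∑ j ∈ s, P i v (u j) z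
  den : ∀ U, Wt D M a R U → Den D M a R fun i v z => P i v (rd D U i v) z

variable {P : A.ι → G → (Cn n → ℝ) → Cn n → ℂ}

theorem Op.zero (hP : Op D M a R P) (i : A.ι) (v : G) {u : Cn n → ℝ} {z : Cn n}
    (h : ∀ᶠ w in 𝓝 z, u w = 0) : P i v u z = 0 := by
  have h1 := hP.sum i v ∅ (fun _ => u) z (by simp)
  rw [Finset.sum_empty] at h1
  rw [← h1]
  exact hP.congr _ _ _ _ _ (h.mono fun w hw => by simpa using hw)

theorem op_W (K : Kah A) (hd : Dat D M a) {ε : ℝ} (hε : 0 < ε) (h : Jt D M r θ) :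
    Op D M a R fun i v u z =>
      ip (Wm (gE (gk K i z) (Ca D a i v z) ε) (hess u z)) (θ i v z) (θ i v z) where
  congr i v u u' z e := by rw [hess_congr e]
  sum i v s u z e := by rw [hess_sum s e, Wm_sum, ip_sum]
  den U hU := den_W K hd hε (xn_hess hd hU) h

theorem op_D (K : Kah A) (hd : Dat D M a) {ε : ℝ} (hε : 0 < ε) (h : Jt D M r θ) (c : Fin q → ℂ) :
    Op D M a R fun i v u z => ip (Wm (gE (gk K i z) (Ca D a i v z) ε)
      (d1 (Ca D a i v z *ᵥ c) u z)) (θ i v z) (θ i v z) where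
  congr i v u u' z e := by rw [d1_congr _ e]
  sum i v s u z e := by rw [d1_sum s _ fun k hk => dif (e k hk), Wm_sum, ip_sum]
  den U hU := den_W K hd hε (xn_d1 hd hU c) h

theorem op_U {Y : A.ι → G → Cn n → Mt n} (hY : Tn D M Y) (h : Jt D M r θ) :
    Op D M a R fun i v u z => ((u z * en (Y i v z) (θ i v z) : ℝ) : ℂ) where
  congr i v u u' z e := by rw [e.self_of_nhds]
  sum i v s u z _ := by rw [Finset.sum_mul, Complex.ofReal_sum]
  den U hU := den_U hU hY h

theorem tn_sub {Y Y' : A.ι → G → Cn n → Mt n} (h : Tn D M Y) (h' : Tn D M Y') :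
    Tn D M fun i v z => Y i v z - Y' i v z where
  law i j v x hx := by
    rw [Matrix.mul_sub, Matrix.sub_mul, h.law i j v x hx, h'.law i j v x hx, smul_sub]
  inv m hm i v z hz := by rw [h.inv m hm i v z hz, h'.inv m hm i v z hz]
  cont i v s p := (h.cont i v s p).sub (h'.cont i v s p)

theorem en_sub (Y Y' : Mt n) (y : Fin n → H) : en (Y - Y') y = en Y y - en Y' y := by
  rw [en, ip_sub, Complex.sub_re, en, en]

variable [T2Space X] [CompactSpace X]

theorem int_ph (hP : Op D M a R P) (hd : Dat D M a) {j : A.ι}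
    (hρ : tsupport ρ ⊆ (A.e j).source) (hs : tsupport ψ ⊆ Metric.ball 0 R) (v : G) :
    ∫ z, P j v (ph D (Uj D a ρ ψ) j v) z =
      ∫ z in (A.e j).target, P j v (rd D (Uj D a ρ ψ) j v) z := by
  obtain ⟨K₀, K', h1, -, h3, h4, -, h6⟩ := exists_K hd hρ hs v
  rw [← setIntegral_eq_integral_of_forall_compl_eq_zero (s := (A.e j).target) fun z hz =>
    hP.zero j v (Fs.ev_zero h1 h6 fun h => hz (h4 (interior_subset (h3 h))))]
  exact setIntegral_congr_fun (A.e j).open_target.measurableSet fun z hz =>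
    hP.congr _ _ _ _ _ (ph_ev _ v hz)

theorem int_out (hP : Op D M a R P) (hd : Dat D M a) {j : A.ι} (hρ' : A.Sm ρ)
    (hρ : tsupport ρ ⊆ (A.e j).source) (hψ : ContDiff ℝ ∞ ψ) (hs : tsupport ψ ⊆ Metric.ball 0 R)
    (v : G) : ∫ z, P j (v : G ⧸ M).out (ph D (Uj D a ρ ψ) j (v : G ⧸ M).out) z =
      ∫ z, P j v (ph D (Uj D a ρ ψ) j v) z := by
  rw [int_ph hP hd hρ hs, int_ph hP hd hρ hs]
  exact setIntegral_congr_fun (A.e j).open_target.measurableSet fun z hz =>
    (hP.den _ (wt_Uj hd hρ' hψ hs)).out j v hz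

variable [Fintype A.ι] [Countable G]

/-- the global integral is the sum of the local ones -/
theorem IM_op (K : Kah A) (hP : Op D M a R P) (hd : Dat D M a) {ρ : A.ι → X → ℝ} (hρ : PU A ρ)
    (hψ : ContDiff ℝ ∞ ψ) (hs : tsupport ψ ⊆ Metric.ball 0 R) {T : Finset (G ⧸ M)}
    (hT : ∀ j, ∀ w ∉ T, ∀ z ∈ (A.e j).target, R < ‖rd D a j w.out z‖) :
    IM D K M (fun i v z => P i v (fun w => ψ (rd D a i v w)) z) = ∑ p ∈ Finset.univ ×ˢ T,
      ∫ z, P p.1 p.2.out (ph D (Uj D a (ρ p.1) ψ) p.1 p.2.out) z := by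
  have hW := fun j => wt_Uj hd (hρ.sm j) hψ hs
  have h1 : IM D K M (fun i v z => P i v (fun w => ψ (rd D a i v w)) z) =
      IM D K M fun i v z => ∑ j, P i v (rd D (Uj D a (ρ j) ψ) i v) z :=
    IM_congr K fun i v z hz => by
      rw [← hP.sum i v _ _ z fun j _ => sm_rd (hW j).sm i v hz]
      congr 1
      funext w
      simp only [rd_Uj]
      rw [← Finset.sum_mul, hρ.one, one_mul]
  rw [h1, IM_sum K hd _ fun j _ => hP.den _ (hW j), Finset.sum_product]
  refine Finset.sum_congr rfl fun j _ => ?_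
  rw [IM_eq_sum K hd (hP.den _ (hW j)) j T (fun i v x hx hj => hP.zero i v ?_)
    fun w hw z hz => (hP.den _ (hW j)).supp j _ z hz (hT j w hw z hz)]
  · exact Finset.sum_congr rfl fun w _ => (int_ph hP hd (hρ.sub j) hs _).symm
  · have h2 : ∀ᶠ y in 𝓝 x, ρ j y = 0 :=
      notMem_tsupport_iff_eventuallyEq.1 fun h => hj (hρ.sub j h)
    filter_upwards [(R275.QN2b734.tendsto_symm hx).eventually h2] with w hw
    rw [rd_Uj]
    simp only [hw, zero_mul]

variable (K : Kah A) {b : M → H} {f : D.cov G → H} {ε : ℝ} {T : Finset (G ⧸ M)}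
variable {σ : A.ι → X → ℝ}

theorem RG_hess (hd : Dat D M a) (hρ : PU A σ) (hψ : ContDiff ℝ ∞ ψ)
    (hs : tsupport ψ ⊆ Metric.ball 0 R)
    (hT : ∀ j, ∀ w ∉ T, ∀ z ∈ (A.e j).target, R < ‖rd D a j w.out z‖) (hε : 0 < ε)
    (hf : Eqv D M r b f) : (RG D K M a (hess ψ) ε fun i v z => th (rd D f i v) z).re =
      ∑ p ∈ Finset.univ ×ˢ T, Rs (gk K p.1) (rd D a p.1 p.2.out) ε
        (ph D (Uj D a (σ p.1) ψ) p.1 p.2.out) (rd D f p.1 p.2.out) := by
  have h1 := IM_op K (op_W (R := R) K hd hε (jt_th hf)) hd hρ hψ hs hT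
  rw [Fam69.RG, IM_congr K (Φ := fun i v z => ip (Wm (gE (gk K i z) (Ca D a i v z) ε)
    (hess (fun w => ψ (rd D a i v w)) z)) (tj D f i v z) (tj D f i v z)) fun i v z hz => by
      rw [hess_cmp (A.e i).open_target (hol_rd hd i v) hz hψ.contDiffAt],
    h1, Complex.re_ofReal_mul, Complex.re_sum, Finset.mul_sum]
  rfl

theorem RG_Zc (hd : Dat D M a) (hρ : PU A σ) (hψ : ContDiff ℝ ∞ ψ)
    (hs : tsupport ψ ⊆ Metric.ball 0 R)
    (hT : ∀ j, ∀ w ∉ T, ∀ z ∈ (A.e j).target, R < ‖rd D a j w.out z‖) (hε : 0 < ε)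
    (hf : Eqv D M r b f) (c : Fin q → ℂ) :
    ‖RG D K M a (Zc c ψ) ε fun i v z => th (rd D f i v) z‖ ≤
      ∑ p ∈ Finset.univ ×ˢ T, ε ^ q / ε * ‖∫ z, ip (Wm (gE (gk K p.1 z)
        (Cf (rd D a p.1 p.2.out) z) ε) (d1 (Cf (rd D a p.1 p.2.out) z *ᵥ c)
        (ph D (Uj D a (σ p.1) ψ) p.1 p.2.out) z)) (th (rd D f p.1 p.2.out) z)
        (th (rd D f p.1 p.2.out) z)‖ := by
  have h1 := IM_op K (op_D (R := R) K hd hε (jt_th hf) c) hd hρ hψ hs hT
  have h0 : 0 ≤ ε ^ q / ε := by positivity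
  rw [Fam69.RG, IM_congr K (Φ := fun i v z => ip (Wm (gE (gk K i z) (Ca D a i v z) ε)
    (d1 (Ca D a i v z *ᵥ c) (fun w => ψ (rd D a i v w)) z)) (tj D f i v z) (tj D f i v z))
    fun i v z hz => by
      rw [d1_cmp ((hol_rd hd i v).differentiableAt ((A.e i).open_target.mem_nhds hz))
        (dif hψ.contDiffAt)]
      rfl,
    h1, norm_mul, Complex.norm_real, Real.norm_of_nonneg h0, ← Finset.mul_sum]
  exact mul_le_mul_of_nonneg_left (norm_sum_le _ _) h0

theorem IM_en {Y : A.ι → G → Cn n → Mt n} (hY : Tn D M Y) (hd : Dat D M a) (hρ : PU A σ)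
    (hψ : ContDiff ℝ ∞ ψ) (hs : tsupport ψ ⊆ Metric.ball 0 R)
    (hT : ∀ j, ∀ w ∉ T, ∀ z ∈ (A.e j).target, R < ‖rd D a j w.out z‖) (h : Jt D M r θ) :
    (IM D K M fun i v z => ((ψ (rd D a i v z) * en (Y i v z) (θ i v z) : ℝ) : ℂ)).re =
      ∑ p ∈ Finset.univ ×ˢ T, ∫ z, ph D (Uj D a (σ p.1) ψ) p.1 p.2.out z *
        en (Y p.1 p.2.out z) (θ p.1 p.2.out z) := by
  rw [IM_op K (op_U (R := R) hY h) hd hρ hψ hs hT, Complex.re_sum]
  exact Finset.sum_congr rfl fun p _ => by rw [integral_complex_ofReal, Complex.ofReal_re]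

theorem Ee_sub (hd : Dat D M a) (hρ : PU A σ) (hψ : ContDiff ℝ ∞ ψ)
    (hs : tsupport ψ ⊆ Metric.ball 0 R)
    (hT : ∀ j, ∀ w ∉ T, ∀ z ∈ (A.e j).target, R < ‖rd D a j w.out z‖) (h : Jt D M r θ) :
    Ee D K M a ψ ε θ - E0 D K M a ψ θ =
      ∑ p ∈ Finset.univ ×ˢ T, ∫ z, ph D (Uj D a (σ p.1) ψ) p.1 p.2.out z *
        (ee (gk K p.1 z) (Cf (rd D a p.1 p.2.out) z) ε (θ p.1 p.2.out z) -
          e0 (gk K p.1 z) (Cf (rd D a p.1 p.2.out) z) (θ p.1 p.2.out z)) := by
  have h1 := IM_en K (tn_sub (tn_Qe K hd ε) (tn_Q0 K hd)) hd hρ hψ hs hT h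
  have h2 := IM_sub K hd (Fam69.den_en hd (tn_Qe K hd ε) h hψ.continuous fun _ => psi_off hs)
    (Fam69.den_en hd (tn_Q0 K hd) h hψ.continuous fun _ => psi_off hs)
  simp only [en_sub] at h1
  simp only [← Complex.ofReal_sub, ← mul_sub] at h2
  rw [h2, Complex.sub_re] at h1
  exact h1

theorem sum_le_of {κ : Type*} (s : Finset κ) {u : κ → ℝ} {δ η : ℝ} (hη : 0 < η)
    (hδ : δ = η / (s.card + 1)) {w : κ → ℝ} (h : ∀ p ∈ s, u p ≤ w p + δ) :
    ∑ p ∈ s, u p ≤ ∑ p ∈ s, w p + η := by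
  refine (Finset.sum_le_sum h).trans ?_
  rw [Finset.sum_add_distrib, Finset.sum_const, nsmul_eq_mul, hδ, mul_div_assoc']
  gcongr
  rw [div_le_iff₀ (by positivity)]
  nlinarith

/-- **SUM** -/
theorem sum_of (fs : FsStmt) : SumStmt := by
  intro n q X _ _ _ A _ _ K G _ _ D M a hd H _ _ _ r b ψ R hψ h0 hs
  classical
  have := Fintype.ofFinite A.ι
  obtain ⟨T, hT⟩ := hd.exists_fin R
  -- the local statements
  have loc : ∀ (ρ : X → ℝ) (j : A.ι) (v : G), A.Sm ρ → (∀ x, 0 ≤ ρ x) →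
      tsupport ρ ⊆ (A.e j).source → ∃ K' : Set (Cn n), IsCompact K' ∧ K' ⊆ (A.e j).target ∧
      (∀ z ∈ K', ‖rd D a j v z‖ ≤ R) ∧ ContDiff ℝ ∞ (ph D (Uj D a ρ ψ) j v) ∧
      (∀ z, 0 ≤ ph D (Uj D a ρ ψ) j v z) ∧ tsupport (ph D (Uj D a ρ ψ) j v) ⊆ interior K' := by
    intro ρ j v h1 h2 h3
    obtain ⟨K₀, K', k1, k2, k3, k4, k5, k6⟩ := exists_K hd h3 hs v
    refine ⟨K', k2, k4, k5, Fs.sm_ext k1 (k3.trans (interior_subset.trans k4)) (fun z hz =>
      (sm_rd (wt_Uj hd h1 hψ hs).sm j v hz).congr_of_eventuallyEq (ph_ev _ v hz)) k6,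
      fun z => indicator_nonneg (fun w _ => mul_nonneg (h2 _) (h0 _)) z,
      (closure_minimal (fun z hz => by_contra fun h => (Function.mem_support.1 hz) (k6 z h))
        k1.isClosed).trans k3⟩
  refine ⟨fun ε F hε hε1 hF hS c t κ η hc ht hκ hη => ?_, fun i v z₀ hz₀ hp => ?_⟩
  · obtain ⟨σ, hσ⟩ := exists_pu A
    set s : Finset (A.ι × (G ⧸ M)) := Finset.univ ×ˢ T with hs'
    have hδ : 0 < η / (s.card + 1) := by positivity
    have h1 := (eventually_all_finset s).2 fun p _ => by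
      obtain ⟨K', k1, k2, k3, k4, k5, k6⟩ := loc (σ p.1) p.1 p.2.out (hσ.sm _) (hσ.nn _) (hσ.sub _)
      exact ((fs n q H (cjR r) _ _ _ _ K' (kf_gk K p.1) (hol_rd hd p.1 p.2.out) k4 k5 k1 k6 k2).1
        ε (fun j => rd D (F j) p.1 p.2.out) hε hε1 (hS p.1 p.2.out K' k1 k2 k3) _ hδ).2
        c t κ hc ht hκ
    filter_upwards [h1] with j hj
    refine (RG_Zc K hd hσ hψ hs hT hε (hF j) c).trans ((sum_le_of s hη rfl hj).trans_eq ?_)
    rw [Ee_sub K hd hσ hψ hs hT (jt_th (hF j)), RG_hess K hd hσ hψ hs hT hε (hF j), Ee,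
      show (IM D K M fun i v z => ((ψ (rd D a i v z) * ee (K.g i ((A.e i).symm z))
        (Cf (rd D a i v) z) ε (th (rd D (F j) i v) z) : ℝ) : ℂ)).re = _ from
        IM_en K (tn_Qe K hd ε) hd hσ hψ hs hT (jt_th (hF j)),
      Finset.sum_add_distrib, Finset.sum_add_distrib, ← Finset.mul_sum, ← Finset.mul_sum,
      ← Finset.mul_sum]
    rfl
  · obtain ⟨σ, hσ, hσ0⟩ := exists_pu' A ((A.e i).map_target hz₀)
    obtain ⟨K', k1, k2, k3, k4, k5, k6⟩ := loc (σ i) i v (hσ.sm _) (hσ.nn _) (hσ.sub _)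
    have hpos : 0 < ph D (Uj D a (σ i) ψ) i v z₀ := by
      rw [(ph_ev _ v hz₀).self_of_nhds]
      exact mul_pos hσ0 hp
    refine ⟨_, (isOpen_lt continuous_const k4.continuous).mem_nhds hpos, fun χ hχ hχs => ?_⟩
    obtain ⟨C, hC0, hC⟩ := (fs n q H (cjR r) _ _ _ _ K' (kf_gk K i) (hol_rd hd i v) k4 k5 k1 k6
      k2).2 χ hχ hχs
    refine ⟨C, hC0, fun ε F hε hε1 hF hS η hη => ?_⟩
    have hT' : ∀ j, ∀ w ∉ insert (v : G ⧸ M) T, ∀ z ∈ (A.e j).target, R < ‖rd D a j w.out z‖ :=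
      fun j w hw => hT j w fun h => hw (Finset.mem_insert_of_mem h)
    set s : Finset (A.ι × (G ⧸ M)) := Finset.univ ×ˢ insert (v : G ⧸ M) T with hs'
    have hm : (i, (v : G ⧸ M)) ∈ s :=
      Finset.mem_product.2 ⟨Finset.mem_univ _, Finset.mem_insert_self _ _⟩
    have hη' : 0 < η / 2 / (C + 1) := by positivity
    have hδ : 0 < η / 2 / (C + 1) / ((s.erase (i, (v : G ⧸ M))).card + 1) := by positivity
    have h1 := (eventually_all_finset (s.erase (i, (v : G ⧸ M)))).2 fun p _ => by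
      obtain ⟨K', k1, k2, k3, k4, k5, k6⟩ := loc (σ p.1) p.1 p.2.out (hσ.sm _) (hσ.nn _) (hσ.sub _)
      exact ((fs n q H (cjR r) _ _ _ _ K' (kf_gk K p.1) (hol_rd hd p.1 p.2.out) k4 k5 k1 k6 k2).1
        ε (fun j => rd D (F j) p.1 p.2.out) hε hε1 (hS p.1 p.2.out K' k1 k2 k3) _ hδ).1
    filter_upwards [h1, hC ε (fun j => rd D (F j) i v) hε hε1 (hS i v K' k1 k2 k3) _
      (half_pos hη)] with j hj hj' s₀ I
    have h2 := sum_le_of (u := fun _ => 0) _ hη' rfl fun p hp => neg_le_iff_add_nonneg.1 (hj p hp)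
    have h3 : Rs (gk K i) (rd D a i (v : G ⧸ M).out) ε (ph D (Uj D a (σ i) ψ) i (v : G ⧸ M).out)
        (rd D (F j) i (v : G ⧸ M).out) =
        Rs (gk K i) (rd D a i v) ε (ph D (Uj D a (σ i) ψ) i v) (rd D (F j) i v) := by
      rw [Rs, Rs]
      exact congrArg (fun y : ℂ => ε ^ q / ε * y.re)
        (int_out (op_W (R := R) K hd hε (jt_th (hF j))) hd (hσ.sm i) (hσ.sub i) hψ hs v)
    have h4 := RG_hess K hd hσ hψ hs hT' hε (hF j)
    rw [← Finset.add_sum_erase _ _ hm] at h4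
    rw [Finset.sum_const_zero] at h2
    have h5 : C * (η / 2 / (C + 1)) ≤ η / 2 := by
      rw [mul_div_assoc', div_le_iff₀ (by positivity)]
      nlinarith
    have h6 : Rs (gk K i) (rd D a i v) ε (ph D (Uj D a (σ i) ψ) i v) (rd D (F j) i v) ≤
        (RG D K M a (hess ψ) ε fun i v z => th (rd D (F j) i v) z).re + η / 2 / (C + 1) := by
      rw [h4, ← h3]
      linarith
    have h7 := mul_le_mul_of_nonneg_left h6 hC0
    have h8 := hj' s₀ I
    linarith

end

end Crest.Agent.X261.Fam11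

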